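import Vale.Agent.P160.Bounds

/-!
Asymptotics of the error term.
-/

namespace Vale.Agent.P160

open Finset Filter Topology

/-- Number of exposed rows. -/
noncomputable def KK (n : ℕ) : ℕ := ⌈4 * Real.sqrt n⌉₊

/-- Supports with at least three and at most `n - 4n/log n` elements. -/
noncomputable def Fam (n : ℕ) : Finset (Finset (Fin n)) :=
  by classical exact univ.filter (fun S => 3 ≤ S.card ∧ (S.card : ℝ) ≤ n - 4 * n / Real.log n)

/-- Error term. -/
noncomputable def Err (n : ℕ) : ℝ :=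
  4 ^ n / (2 : ℝ) ^ (((KK n + 2 : ℕ) * (KK n + 2 : ℕ) : ℝ) / 2) +
      ∑ S ∈ Fam n, (n + 1 : ℝ) ^ KK n * rho S.card ^ (n - S.card - KK n)

/-- Small quantity. -/
noncomputable def EE (n : ℕ) : ℝ := (4100 + KK n) * (Real.log (n + 1) + 10)

lemma KK_ge (n : ℕ) : 4 * Real.sqrt n ≤ KK n := Nat.le_ceil _

lemma KK_le (n : ℕ) : (KK n : ℝ) ≤ 4 * Real.sqrt n + 1 :=
  (Nat.ceil_lt_add_one (by positivity)).le

lemma tendsto_sqrt_nat : Tendsto (fun n : ℕ => Real.sqrt n) atTop atTop :=
  Real.tendsto_sqrt_atTop.comp tendsto_natCast_atTop_atTop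

lemma ev_log_sqrt (ε : ℝ) (hε : 0 < ε) :
    ∀ᶠ n : ℕ in atTop, Real.log (n + 1) + 10 ≤ ε * Real.sqrt n := by
  have h1 : (fun x : ℝ => Real.log x) =o[atTop] (fun x : ℝ => x ^ (1 / 2 : ℝ)) :=
    isLittleO_log_rpow_atTop (by norm_num)
  have h2 : Tendsto (fun n : ℕ => ((n : ℝ) + 1)) atTop atTop :=
    tendsto_atTop_add_const_right _ _ tendsto_natCast_atTop_atTop
  have h3 := (h1.comp_tendsto h2).bound (show (0 : ℝ) < ε / 4 by positivity)
  have h4 := tendsto_sqrt_nat.eventually_ge_atTop (20 / ε)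
  filter_upwards [h3, h4, eventually_ge_atTop 1] with n hn hn4 hn1
  simp only [Function.comp_apply, Real.norm_eq_abs] at hn
  have hn1' : (1 : ℝ) ≤ n := by exact_mod_cast hn1
  have hp : (0 : ℝ) ≤ ((n : ℝ) + 1) ^ (1 / 2 : ℝ) := by positivity
  rw [abs_of_nonneg hp, ← Real.sqrt_eq_rpow] at hn
  have h5 : Real.sqrt ((n : ℝ) + 1) ≤ 2 * Real.sqrt n := by
    rw [show (2 : ℝ) * Real.sqrt n = Real.sqrt (4 * n) by
      rw [Real.sqrt_mul (by norm_num), show (4 : ℝ) = 2 ^ 2 by norm_num,
        Real.sqrt_sq (by norm_num)]]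
    apply Real.sqrt_le_sqrt
    linarith
  have h6 : Real.log (n + 1) ≤ ε / 2 * Real.sqrt n := by
    calc Real.log (n + 1) ≤ |Real.log (n + 1)| := le_abs_self _
      _ ≤ ε / 4 * Real.sqrt (n + 1) := hn
      _ ≤ ε / 4 * (2 * Real.sqrt n) := by gcongr
      _ = ε / 2 * Real.sqrt n := by ring
  have h7 : 10 ≤ ε / 2 * Real.sqrt n := by
    have : ε / 2 * (20 / ε) ≤ ε / 2 * Real.sqrt n := by gcongr
    calc (10 : ℝ) = ε / 2 * (20 / ε) := by field_simp; norm_num
      _ ≤ _ := this
  linarith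

lemma ev_EE (ε : ℝ) (hε : 0 < ε) : ∀ᶠ n : ℕ in atTop, EE n ≤ ε * n := by
  filter_upwards [ev_log_sqrt (ε / 5) (by positivity), tendsto_sqrt_nat.eventually_ge_atTop 4101,
    eventually_ge_atTop 1] with n h1 h2 h3
  have h4 := KK_le n
  have hlog : 0 ≤ Real.log ((n : ℝ) + 1) := Real.log_nonneg (by
    have : (0 : ℝ) ≤ n := Nat.cast_nonneg n
    linarith)
  have hsq : Real.sqrt n * Real.sqrt n = n := Real.mul_self_sqrt (Nat.cast_nonneg n)
  have h5 : (4100 + KK n : ℝ) ≤ 5 * Real.sqrt n := by linarith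
  calc EE n = (4100 + KK n) * (Real.log (n + 1) + 10) := rfl
    _ ≤ (5 * Real.sqrt n) * (ε / 5 * Real.sqrt n) := by
        apply mul_le_mul h5 h1 (by linarith) (by positivity)
    _ = ε * (Real.sqrt n * Real.sqrt n) := by ring
    _ = ε * n := by rw [hsq]

lemma ev_log_big (c : ℝ) : ∀ᶠ n : ℕ in atTop, c ≤ Real.log n :=
  (Real.tendsto_log_atTop.comp tendsto_natCast_atTop_atTop).eventually_ge_atTop c

lemma KKlog_le_EE (n : ℕ) : (KK n : ℝ) * (Real.log (n + 1) + 10) ≤ EE n := by
  unfold EE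
  have hlog : 0 ≤ Real.log ((n : ℝ) + 1) := Real.log_nonneg (by
    have : (0 : ℝ) ≤ n := Nat.cast_nonneg n
    linarith)
  apply mul_le_mul_of_nonneg_right _ (by linarith)
  linarith

/-- Bound for the sum over the supports in three regimes. -/
lemma sum_bound (n : ℕ) (hn : 3 ≤ n) (hlog2 : 2 ≤ Real.log n) (hEE : EE n ≤ n / 20)
    (hll : 40 ≤ Real.log n) :
    ∑ S ∈ Fam n, (n + 1 : ℝ) ^ KK n * rho S.card ^ (n - S.card - KK n) ≤
      3 * Real.exp (-(n : ℝ) * (Real.log 2 + 1 / 10)) := by
  classical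
  have hn0 : (0 : ℝ) ≤ n := Nat.cast_nonneg n
  have hn1 : (0 : ℝ) < n + 1 := by linarith
  have hlog : 0 ≤ Real.log ((n : ℝ) + 1) := Real.log_nonneg (by linarith)
  have hK0 : (0 : ℝ) ≤ KK n := Nat.cast_nonneg _
  have hKE := KKlog_le_EE n
  have hK10 : (KK n : ℝ) * 10 ≤ EE n := by nlinarith
  have hpowK : (n + 1 : ℝ) ^ KK n = Real.exp (KK n * Real.log (n + 1)) := by
    rw [mul_comm, Real.exp_mul, Real.exp_log hn1, Real.rpow_natCast]
  -- splitting
  set F1 := (Fam n).filter (fun S => S.card ≤ 4094) with hF1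
  set F2 := (Fam n).filter (fun S => 4094 < S.card ∧ 2 * S.card ≤ n) with hF2
  set F3 := (Fam n).filter (fun S => n < 2 * S.card) with hF3
  have hcover : Fam n ⊆ F1 ∪ F2 ∪ F3 := by
    intro S hS
    simp only [hF1, hF2, hF3, mem_union, mem_filter]
    by_cases h1 : S.card ≤ 4094
    · exact Or.inl (Or.inl ⟨hS, h1⟩)
    · by_cases h2 : 2 * S.card ≤ n
      · exact Or.inl (Or.inr ⟨hS, by omega, h2⟩)
      · exact Or.inr ⟨hS, by omega⟩
  set f : Finset (Fin n) → ℝ := fun S => (n + 1 : ℝ) ^ KK n * rho S.card ^ (n - S.card - KK n)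
    with hf
  have hf0 : ∀ S, 0 ≤ f S := fun S => by
    rw [hf]; exact mul_nonneg (by positivity) (pow_nonneg (rho_nonneg _) _)
  have hsum : ∑ S ∈ Fam n, f S ≤ ∑ S ∈ F1, f S + ∑ S ∈ F2, f S + ∑ S ∈ F3, f S := by
    calc ∑ S ∈ Fam n, f S ≤ ∑ S ∈ F1 ∪ F2 ∪ F3, f S :=
          Finset.sum_le_sum_of_subset_of_nonneg hcover (fun S _ _ => hf0 S)
      _ ≤ ∑ S ∈ F1 ∪ F2, f S + ∑ S ∈ F3, f S := by
          have := Finset.sum_union_inter (s₁ := F1 ∪ F2) (s₂ := F3) (f := f)
          have h0 : 0 ≤ ∑ S ∈ (F1 ∪ F2) ∩ F3, f S := Finset.sum_nonneg fun S _ => hf0 S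
          linarith
      _ ≤ _ := by
          have := Finset.sum_union_inter (s₁ := F1) (s₂ := F2) (f := f)
          have h0 : 0 ≤ ∑ S ∈ F1 ∩ F2, f S := Finset.sum_nonneg fun S _ => hf0 S
          linarith
  have hcardall : ∀ F : Finset (Finset (Fin n)), (F.card : ℝ) ≤ Real.exp (n * Real.log 2) := by
    intro F
    have h1 : F.card ≤ 2 ^ n := by
      have := Finset.card_le_univ F
      simpa using this
    have h2 : Real.exp (n * Real.log 2) = 2 ^ n := by
      rw [mul_comm, Real.exp_mul, Real.exp_log (by norm_num), Real.rpow_natCast]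
    rw [h2]; exact_mod_cast h1
  -- general estimate
  have gen : ∀ (F : Finset (Finset (Fin n))) (a b : ℝ), (F.card : ℝ) ≤ Real.exp a →
      (∀ S ∈ F, rho S.card ^ (n - S.card - KK n) ≤ Real.exp b) →
      a + b + KK n * Real.log (n + 1) ≤ -(n : ℝ) * (Real.log 2 + 1 / 10) →
      ∑ S ∈ F, f S ≤ Real.exp (-(n : ℝ) * (Real.log 2 + 1 / 10)) := by
    intro F a b ha hb hab
    calc ∑ S ∈ F, f S ≤ ∑ S ∈ F, Real.exp (KK n * Real.log (n + 1)) * Real.exp b := by
          refine Finset.sum_le_sum fun S hS => ?_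
          rw [hf]
          simp only
          rw [hpowK]
          exact mul_le_mul_of_nonneg_left (hb S hS) (Real.exp_pos _).le
      _ = F.card * (Real.exp (KK n * Real.log (n + 1)) * Real.exp b) := by
          rw [Finset.sum_const, nsmul_eq_mul]
      _ ≤ Real.exp a * (Real.exp (KK n * Real.log (n + 1)) * Real.exp b) := by
          apply mul_le_mul_of_nonneg_right ha (by positivity)
      _ = Real.exp (a + b + KK n * Real.log (n + 1)) := by
          rw [← Real.exp_add, ← Real.exp_add]; congr 1; ring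
      _ ≤ _ := Real.exp_le_exp.mpr hab
  have hsub : ∀ S : Finset (Fin n), ((n : ℝ) - S.card - KK n) ≤ ((n - S.card - KK n : ℕ) : ℝ) := by
    intro S
    have h1 : n ≤ (n - S.card - KK n) + S.card + KK n := by omega
    have h2 : (n : ℝ) ≤ ((n - S.card - KK n : ℕ) : ℝ) + S.card + KK n := by exact_mod_cast h1
    linarith
  -- power estimate
  have powest : ∀ (S : Finset (Fin n)) (r L x : ℝ), 0 < r → Real.log r = -L → 0 ≤ L →
      rho S.card ≤ r → x ≤ (n : ℝ) - S.card - KK n →
      rho S.card ^ (n - S.card - KK n) ≤ Real.exp (-(L * x)) := by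
    intro S r L x hr hL hL0 hrho hx
    calc rho S.card ^ (n - S.card - KK n) ≤ r ^ (n - S.card - KK n) :=
          pow_le_pow_left₀ (rho_nonneg _) hrho _
      _ = Real.exp (Real.log r * ((n - S.card - KK n : ℕ) : ℝ)) := by
          rw [Real.exp_mul, Real.exp_log hr, Real.rpow_natCast]
      _ ≤ Real.exp (-(L * x)) := by
          apply Real.exp_le_exp.mpr
          rw [hL]
          have h1 := hsub S
          have h2 : x ≤ ((n - S.card - KK n : ℕ) : ℝ) := hx.trans h1
          nlinarith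
  have hl2 : Real.log 2 < 0.6931471808 := Real.log_two_lt_d9
  have hl2' : 0.6931471803 < Real.log 2 := Real.log_two_gt_d9
  -- regime 1
  have r1 : ∑ S ∈ F1, f S ≤ Real.exp (-(n : ℝ) * (Real.log 2 + 1 / 10)) := by
    have hlog83 : Real.log (3 / 8) = -Real.log (8 / 3) := by
      rw [← Real.log_inv]; norm_num
    have hlog83' : Real.log 2 + 1 / 4 ≤ Real.log (8 / 3) := by
      have e1 : Real.log (8 / 3) = Real.log 2 + Real.log (4 / 3) := by
        rw [← Real.log_mul (by norm_num) (by norm_num)]; norm_num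
      rw [e1]
      have e2 : (1 : ℝ) - (4 / 3)⁻¹ ≤ Real.log (4 / 3) := Real.one_sub_inv_le_log_of_pos (by norm_num)
      norm_num at e2
      linarith
    have hlog83'' : Real.log (8 / 3) ≤ 5 / 3 := by
      have := Real.log_le_sub_one_of_pos (show (0 : ℝ) < 8 / 3 by norm_num)
      linarith
    refine gen F1 (4094 * Real.log (n + 1)) (-(Real.log (8 / 3) * (n - 4094 - KK n))) ?_ ?_ ?_
    · have h1 : F1.card ≤ (n + 1) ^ 4094 := by
        have h2 : F1 ⊆ univ.filter (fun J : Finset (Fin n) => J.card ≤ 4094) := by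
          intro S hS
          rw [hF1, Finset.mem_filter] at hS
          simp [hS.2]
        refine (Finset.card_le_card h2).trans ((card_small 4094).trans ?_)
        rw [Fintype.card_fin]
      have h3 : Real.exp (4094 * Real.log (n + 1)) = ((n : ℝ) + 1) ^ 4094 := by
        rw [mul_comm, Real.exp_mul, Real.exp_log hn1]
        rw [show (4094 : ℝ) = ((4094 : ℕ) : ℝ) by norm_num, Real.rpow_natCast]
      rw [h3]; exact_mod_cast h1
    · intro S hS
      rw [hF1, Finset.mem_filter] at hS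
      have hS3 : 3 ≤ S.card := by
        have := hS.1
        unfold Fam at this
        exact (Finset.mem_filter.mp this).2.1
      refine powest S (3 / 8) (Real.log (8 / 3)) _ (by norm_num) hlog83 (by linarith)
        (rho_le_three _ hS3) ?_
      have : (S.card : ℝ) ≤ 4094 := by exact_mod_cast hS.2
      linarith
    · -- 4094 log(n+1) + K log(n+1) - L (n - 4094 - K) ≤ - n (log 2 + 1/10)
      have h1 : (4094 + KK n) * (Real.log (n + 1) + 10) ≤ EE n := by
        unfold EE
        apply mul_le_mul_of_nonneg_right _ (by linarith)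
        linarith
      have h2 : Real.log (8 / 3) * (4094 + KK n) ≤ 10 * (4094 + KK n) := by
        apply mul_le_mul_of_nonneg_right _ (by positivity)
        linarith
      nlinarith
  -- regime 2
  have r2 : ∑ S ∈ F2, f S ≤ Real.exp (-(n : ℝ) * (Real.log 2 + 1 / 10)) := by
    have hlog64 : Real.log (1 / 64) = -(6 * Real.log 2) := by
      rw [one_div, Real.log_inv, show (64 : ℝ) = 2 ^ 6 by norm_num, Real.log_pow]; norm_num
    refine gen F2 (n * Real.log 2) (-((6 * Real.log 2) * (n / 2 - KK n))) (hcardall _) ?_ ?_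
    · intro S hS
      rw [hF2, Finset.mem_filter] at hS
      refine powest S (1 / 64) (6 * Real.log 2) _ (by norm_num) hlog64 (by linarith) ?_ ?_
      · have h1 := rho_le_sqrt S.card
        refine h1.trans ?_
        have h2 : (64 : ℝ) ≤ Real.sqrt (S.card + 1) := by
          rw [show (64 : ℝ) = Real.sqrt (64 ^ 2) by rw [Real.sqrt_sq (by norm_num)]]
          apply Real.sqrt_le_sqrt
          have : (4095 : ℝ) ≤ S.card := by exact_mod_cast hS.2.1
          norm_num
          linarith
        exact one_div_le_one_div_of_le (by norm_num) h2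
      · have : (2 : ℝ) * S.card ≤ n := by exact_mod_cast hS.2.2
        linarith
    · nlinarith
  -- regime 3
  have r3 : ∑ S ∈ F3, f S ≤ Real.exp (-(n : ℝ) * (Real.log 2 + 1 / 10)) := by
    have hn3 : (3 : ℝ) ≤ n := by exact_mod_cast hn
    have hlogn0 : 0 < Real.log n := by linarith
    set L : ℝ := (Real.log n - Real.log 2) / 2 with hL
    have hLr : Real.log (1 / Real.sqrt (n / 2)) = -L := by
      rw [one_div, Real.log_inv, Real.log_sqrt (by positivity), Real.log_div (by positivity)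
        (by norm_num)]
    have hL0 : 0 ≤ L := by rw [hL]; linarith
    refine gen F3 (n * Real.log 2) (-(L * (4 * n / Real.log n - KK n))) (hcardall _) ?_ ?_
    · intro S hS
      rw [hF3, Finset.mem_filter] at hS
      refine powest S (1 / Real.sqrt (n / 2)) L _ (by positivity) hLr hL0 ?_ ?_
      · refine (rho_le_sqrt S.card).trans ?_
        apply one_div_le_one_div_of_le (by positivity)
        apply Real.sqrt_le_sqrt
        have : (n : ℝ) < 2 * S.card := by exact_mod_cast hS.2
        linarith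
      · have hS4 := hS.1
        unfold Fam at hS4
        have := (Finset.mem_filter.mp hS4).2.2
        linarith
    · -- n log 2 - L (4n/log n - K) + K log (n+1) ≤ -n (log 2 + 1/10)
      have e1 : L * (4 * n / Real.log n) = 2 * n - 2 * n * Real.log 2 / Real.log n := by
        rw [hL]; field_simp; ring
      have e2 : 2 * n * Real.log 2 / Real.log n ≤ n / 20 := by
        rw [div_le_div_iff₀ hlogn0 (by norm_num)]
        nlinarith
      have e3 : L * KK n ≤ KK n * Real.log (n + 1) := by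
        rw [mul_comm]
        apply mul_le_mul_of_nonneg_left _ hK0
        have : Real.log n ≤ Real.log (n + 1) := Real.log_le_log (by linarith) (by linarith)
        rw [hL]; linarith
      have e4 : KK n * Real.log (n + 1) ≤ EE n := by nlinarith
      have e5 : -(L * (4 * n / Real.log n - KK n)) = -(L * (4 * n / Real.log n)) + L * KK n := by
        ring
      rw [e5, e1]
      nlinarith
  linarith

end Vale.Agent.P160
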