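import Vale.Agent.P160.Pairs

/-!
Union bounds.
-/

namespace Vale.Agent.P160

open Finset

lemma P_lower {ι : Type*} [Fintype ι] [DecidableEq ι] {α : Type*} [DecidableEq α] (s : Finset α)
    (E : α → (ι → Bool) → Prop) :
    ∑ a ∈ s, P ι (E a) - ∑ p ∈ s.offDiag, P ι (fun ω => E p.1 ω ∧ E p.2 ω) ≤
      P ι (fun ω => ∃ a ∈ s, E a ω) := by
  classical
  rw [P_def (fun ω => ∃ a ∈ s, E a ω), Finset.sum_congr rfl (fun a _ => P_def (E a)),
    Finset.sum_congr rfl (fun (p : α × α) _ => P_def (fun ω => E p.1 ω ∧ E p.2 ω)),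
    ← Finset.sum_div, ← Finset.sum_div, ← sub_div]
  apply div_le_div_of_nonneg_right _ (by positivity)
  simp only [Finset.card_filter, Nat.cast_sum, Nat.cast_ite, Nat.cast_one, Nat.cast_zero]
  rw [Finset.sum_comm, Finset.sum_comm (s := s.offDiag), ← Finset.sum_sub_distrib]
  refine Finset.sum_le_sum fun ω _ => ?_
  set t := s.filter (fun a => E a ω) with ht
  have h1 : ∑ a ∈ s, (if E a ω then (1 : ℝ) else 0) = t.card := by
    rw [ht, Finset.card_filter]; push_cast; rfl
  have h2 : ∑ p ∈ s.offDiag, (if E p.1 ω ∧ E p.2 ω then (1 : ℝ) else 0) = t.offDiag.card := by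
    have : t.offDiag = s.offDiag.filter (fun p => E p.1 ω ∧ E p.2 ω) := by
      ext p
      simp only [ht, Finset.mem_offDiag, Finset.mem_filter]
      tauto
    rw [this, Finset.card_filter]; push_cast; rfl
  rw [h1, h2, Finset.offDiag_card]
  have h3 : ((t.card * t.card - t.card : ℕ) : ℝ) = (t.card : ℝ) * t.card - t.card := by
    rw [Nat.cast_sub (Nat.le_mul_self _)]; push_cast; ring
  rw [h3]
  by_cases hex : ∃ a ∈ s, E a ω
  · rw [if_pos hex]
    have : (0 : ℝ) ≤ ((t.card : ℝ) - 1) ^ 2 := sq_nonneg _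
    nlinarith
  · rw [if_neg hex]
    have : t = ∅ := by
      rw [ht, Finset.filter_eq_empty_iff]
      intro a ha hE
      exact hex ⟨a, ha, hE⟩
    rw [this]; simp

/-- The number of subsets with at most `K` elements. -/
lemma card_small {V : Type*} [Fintype V] [DecidableEq V] (K : ℕ) :
    (univ.filter (fun J : Finset V => J.card ≤ K)).card ≤ (Fintype.card V + 1) ^ K := by
  classical
  have h1 : (univ.filter (fun J : Finset V => J.card ≤ K)) ⊆
      (univ : Finset (Fin K → Option V)).image
        (fun f => univ.filter (fun x : V => ∃ i, f i = some x)) := by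
    intro J hJ
    have hJ' : J.card ≤ K := (Finset.mem_filter.mp hJ).2
    rw [Finset.mem_image]
    let e := J.equivFin
    refine ⟨fun i => if h : i.1 < J.card then some (e.symm ⟨i.1, h⟩ : V) else none,
      mem_univ _, ?_⟩
    ext x
    simp only [mem_filter, mem_univ, true_and]
    constructor
    · rintro ⟨i, hi⟩
      by_cases h : i.1 < J.card
      · rw [dif_pos h] at hi
        rw [← Option.some_injective _ hi]
        exact (e.symm ⟨i.1, h⟩).2
      · rw [dif_neg h] at hi
        exact absurd hi (by simp)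
    · intro hx
      refine ⟨⟨(e ⟨x, hx⟩).1, lt_of_lt_of_le (e ⟨x, hx⟩).2 hJ'⟩, ?_⟩
      rw [dif_pos (e ⟨x, hx⟩).2]
      simp
  calc (univ.filter (fun J : Finset V => J.card ≤ K)).card
      ≤ ((univ : Finset (Fin K → Option V)).image
        (fun f => univ.filter (fun x : V => ∃ i, f i = some x))).card := Finset.card_le_card h1
    _ ≤ (univ : Finset (Fin K → Option V)).card := Finset.card_image_le
    _ = (Fintype.card V + 1) ^ K := by simp

lemma choose_two_ge (k d : ℕ) (h : k ≤ d) : k * k ≤ 2 * (d + 1).choose 2 := by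
  have h1 : (d + 1).choose 2 = (d + 1) * d / 2 := by
    rw [Nat.choose_two_right]; simp
  have h2 : 2 ∣ (d + 1) * d := (Nat.even_mul_succ_self d).two_dvd.trans (by rw [mul_comm])
  rw [h1, Nat.mul_div_cancel' h2]
  nlinarith

section

variable {V : Type*} [Fintype V] [DecidableEq V]

/-- Some principal block has corank at least `k`. -/
lemma P_big (k : ℕ) :
    P (Sym2 V) (fun ω => ∃ S : Finset V, k ≤ Module.finrank ℝ (Ker ω S S)) ≤
      4 ^ Fintype.card V / (2 : ℝ) ^ ((k * k : ℝ) / 2) := by
  classical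
  have h1 : P (Sym2 V) (fun ω => ∃ S : Finset V, k ≤ Module.finrank ℝ (Ker ω S S)) ≤
      P (Sym2 V) (fun ω => ∃ p ∈ (univ : Finset (Finset V × Finset V)).filter
        (fun p => Disjoint p.1 p.2 ∧ k ≤ p.2.card), Cor p.1 p.2 ω) := by
    refine P_mono fun ω => ?_
    rintro ⟨S, hS⟩
    obtain ⟨I, D, hID, -, hk, hC⟩ := exists_Cor ω S k hS
    exact ⟨(I, D), by simp [hID, hk], hC⟩
  refine h1.trans ((P_union _ _).trans ?_)
  calc ∑ p ∈ (univ : Finset (Finset V × Finset V)).filter
        (fun p => Disjoint p.1 p.2 ∧ k ≤ p.2.card), P (Sym2 V) (Cor p.1 p.2)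
      ≤ ∑ p ∈ (univ : Finset (Finset V × Finset V)).filter
        (fun p => Disjoint p.1 p.2 ∧ k ≤ p.2.card), 1 / (2 : ℝ) ^ ((k * k : ℝ) / 2) := by
        refine Finset.sum_le_sum fun p hp => ?_
        obtain ⟨hd, hk⟩ := (Finset.mem_filter.mp hp).2
        refine (P_Cor p.1 p.2 hd).trans ?_
        apply one_div_le_one_div_of_le (by positivity)
        have h2 := choose_two_ge k p.2.card hk
        rw [← Real.rpow_natCast]
        apply Real.rpow_le_rpow_of_exponent_le (by norm_num)
        have h3 : ((k * k : ℕ) : ℝ) ≤ ((2 * (p.2.card + 1).choose 2 : ℕ) : ℝ) := by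
          exact_mod_cast h2
        push_cast at h3
        linarith
    _ ≤ 4 ^ Fintype.card V / (2 : ℝ) ^ ((k * k : ℝ) / 2) := by
        rw [Finset.sum_const, nsmul_eq_mul, mul_one_div]
        apply div_le_div_of_nonneg_right _ (by positivity)
        have h4 : ((univ : Finset (Finset V × Finset V)).filter
          (fun p => Disjoint p.1 p.2 ∧ k ≤ p.2.card)).card ≤ 4 ^ Fintype.card V := by
          refine (Finset.card_filter_le _ _).trans ?_
          simp only [Finset.card_univ, Fintype.card_prod, Fintype.card_finset]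
          rw [← mul_pow]
          norm_num
        exact_mod_cast h4

/-- The whole matrix has corank at least `k`. -/
lemma P_corank (k : ℕ) :
    P (Sym2 V) (fun ω => k ≤ Module.finrank ℝ (Ker ω univ univ)) ≤
      2 ^ Fintype.card V / 2 ^ ((k + 1).choose 2) := by
  classical
  have h1 : P (Sym2 V) (fun ω => k ≤ Module.finrank ℝ (Ker ω univ univ)) ≤
      P (Sym2 V) (fun ω => ∃ D ∈ (univ : Finset (Finset V)).filter
        (fun D => k ≤ D.card), Cor Dᶜ D ω) := by
    refine P_mono fun ω => ?_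
    intro hS
    obtain ⟨I, D, hID, hun, hk, hC⟩ := exists_Cor ω univ k hS
    have hI : I = Dᶜ := by
      rw [eq_compl_iff_isCompl]
      exact ⟨hID, codisjoint_iff.mpr hun⟩
    exact ⟨D, by simp [hk], hI ▸ hC⟩
  refine h1.trans ((P_union _ _).trans ?_)
  calc ∑ D ∈ (univ : Finset (Finset V)).filter (fun D => k ≤ D.card), P (Sym2 V) (Cor Dᶜ D)
      ≤ ∑ D ∈ (univ : Finset (Finset V)).filter (fun D => k ≤ D.card),
        1 / (2 : ℝ) ^ ((k + 1).choose 2) := by
        refine Finset.sum_le_sum fun D hD => ?_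
        have hk := (Finset.mem_filter.mp hD).2
        refine (P_Cor Dᶜ D disjoint_compl_left).trans ?_
        apply one_div_le_one_div_of_le (by positivity)
        exact pow_le_pow_right₀ (by norm_num) (Nat.choose_le_choose 2 (by omega))
    _ ≤ 2 ^ Fintype.card V / 2 ^ ((k + 1).choose 2) := by
        rw [Finset.sum_const, nsmul_eq_mul, mul_one_div]
        apply div_le_div_of_nonneg_right _ (by positivity)
        have h4 : ((univ : Finset (Finset V)).filter
          (fun D => k ≤ D.card)).card ≤ 2 ^ Fintype.card V := by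
          refine (Finset.card_filter_le _ _).trans ?_
          simp
        exact_mod_cast h4

/-- Circuits with support in a given family. -/
lemma P_circuits (K : ℕ) (𝒮 : Finset (Finset V)) :
    P (Sym2 V) (fun ω => ∃ S ∈ 𝒮, Circ S Sᶜ ω) ≤
      4 ^ Fintype.card V / (2 : ℝ) ^ (((K + 2 : ℕ) * (K + 2 : ℕ) : ℝ) / 2) +
      ∑ S ∈ 𝒮, (Fintype.card V + 1 : ℝ) ^ K * rho S.card ^ (Fintype.card V - S.card - K) := by
  classical
  have h1 : P (Sym2 V) (fun ω => ∃ S ∈ 𝒮, Circ S Sᶜ ω) ≤
      P (Sym2 V) (fun ω => (∃ S : Finset V, (K + 2 : ℕ) ≤ Module.finrank ℝ (Ker ω S S)) ∨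
        ∃ S ∈ 𝒮, ∃ J ∈ (univ.filter (fun J : Finset V => J.card ≤ K)).filter
          (fun J => J ⊆ Sᶜ), Circ S J ω) := by
    refine P_mono fun ω => ?_
    rintro ⟨S, hS, hC⟩
    by_cases hb : ∃ S : Finset V, (K + 2 : ℕ) ≤ Module.finrank ℝ (Ker ω S S)
    · exact Or.inl hb
    · right
      push Not at hb
      have h2 : Module.finrank ℝ (Ker ω S (S ∪ ∅)) ≤ K + 1 := by
        rw [Finset.union_empty]
        have := hb S
        omega
      obtain ⟨J, hJS, hJc, hJC⟩ := exists_Circ S ω hC K ∅ (Finset.empty_subset _) h2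
      refine ⟨S, hS, J, ?_, hJC⟩
      rw [Finset.card_empty, zero_add] at hJc
      simp [hJc, hJS]
  refine h1.trans ((P_or _ _).trans (add_le_add (P_big (K + 2)) ?_))
  refine (P_union _ _).trans (Finset.sum_le_sum fun S _ => ?_)
  refine (P_union _ _).trans ?_
  calc ∑ J ∈ (univ.filter (fun J : Finset V => J.card ≤ K)).filter (fun J => J ⊆ Sᶜ),
        P (Sym2 V) (Circ S J)
      ≤ ∑ J ∈ (univ.filter (fun J : Finset V => J.card ≤ K)).filter (fun J => J ⊆ Sᶜ),
        rho S.card ^ (Fintype.card V - S.card - K) := by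
        refine Finset.sum_le_sum fun J hJ => ?_
        obtain ⟨hJ1, hJ2⟩ := Finset.mem_filter.mp hJ
        have hJ3 := (Finset.mem_filter.mp hJ1).2
        refine (P_Circ S J (Finset.disjoint_left.mpr fun x hx hxJ =>
          (Finset.mem_compl.mp (hJ2 hxJ)) hx)).trans ?_
        exact pow_le_pow_of_le_one (rho_nonneg _) (rho_le_one _) (by omega)
    _ ≤ (Fintype.card V + 1 : ℝ) ^ K * rho S.card ^ (Fintype.card V - S.card - K) := by
        rw [Finset.sum_const, nsmul_eq_mul]
        apply mul_le_mul_of_nonneg_right _ (pow_nonneg (rho_nonneg _) _)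
        have h5 : ((univ.filter (fun J : Finset V => J.card ≤ K)).filter
          (fun J => J ⊆ Sᶜ)).card ≤ (Fintype.card V + 1) ^ K :=
          (Finset.card_filter_le _ _).trans (card_small K)
        exact_mod_cast h5

end

end Vale.Agent.P160
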