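import Mathlib

/-!
The Littlewood-Offord inequality of Erdos and bounds for central binomial coefficients.
-/

namespace Vale.Agent.P160

open Finset

/-- Sign of a Boolean. -/
def sgn (b : Bool) : ℝ := if b then 1 else -1

lemma sgn_mul_abs (b : Bool) (x : ℝ) (hx : x ≠ 0) :
    sgn b * x = if (b = true ↔ 0 < x) then |x| else -|x| := by
  rcases lt_or_gt_of_ne hx with h | h
  · cases b <;> simp [sgn, abs_of_neg h, not_lt.mpr h.le]
  · cases b <;> simp [sgn, abs_of_pos h, h]

theorem littlewood_offord {κ : Type*} [Fintype κ] [DecidableEq κ] (v : κ → ℝ)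
    (hv : ∀ i, v i ≠ 0) (a : ℝ) [DecidablePred fun η : κ → Bool => ∑ i, sgn (η i) * v i = a] :
    (univ.filter (fun η : κ → Bool => ∑ i, sgn (η i) * v i = a)).card ≤
      (Fintype.card κ).choose (Fintype.card κ / 2) := by
  classical
  let F : (κ → Bool) → Finset κ := fun η => univ.filter (fun i => (η i = true ↔ 0 < v i))
  have hF : Function.Injective F := by
    intro η θ h
    funext i
    have h1 : i ∈ F η ↔ i ∈ F θ := by rw [h]
    simp only [F, mem_filter, mem_univ, true_and] at h1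
    by_cases hp : 0 < v i
    · simp only [hp, iff_true] at h1
      exact Bool.eq_iff_iff.mpr h1
    · simp only [hp, iff_false, Bool.not_eq_true] at h1
      cases hη : η i <;> cases hθ : θ i <;> simp_all
  have hsum : ∀ η : κ → Bool, ∑ i, sgn (η i) * v i
      = ∑ i, (if i ∈ F η then |v i| else -|v i|) := by
    intro η
    refine Finset.sum_congr rfl fun i _ => ?_
    rw [sgn_mul_abs _ _ (hv i)]
    simp [F]
  set 𝒜 : Finset (Finset κ) :=
    (univ.filter (fun η : κ → Bool => ∑ i, sgn (η i) * v i = a)).image F with h𝒜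
  have hanti : IsAntichain (· ⊆ ·) (𝒜 : Set (Finset κ)) := by
    intro A hA B hB hAB hsub
    rw [h𝒜, Finset.mem_coe, Finset.mem_image] at hA hB
    obtain ⟨η, hη, rfl⟩ := hA
    obtain ⟨θ, hθ, rfl⟩ := hB
    simp only [mem_filter, mem_univ, true_and] at hη hθ
    rw [hsum] at hη hθ
    have hss : F η ⊂ F θ := lt_of_le_of_ne hsub hAB
    obtain ⟨i, hi, hi'⟩ := Finset.exists_of_ssubset hss
    have hlt : ∑ i, (if i ∈ F η then |v i| else -|v i|) < ∑ i, (if i ∈ F θ then |v i| else -|v i|) := by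
      refine Finset.sum_lt_sum (fun j _ => ?_) ⟨i, mem_univ _, ?_⟩
      · by_cases hj : j ∈ F η
        · rw [if_pos hj, if_pos (hsub hj)]
        · rw [if_neg hj]
          split_ifs
          · linarith [abs_nonneg (v j)]
          · exact le_rfl
      · rw [if_neg hi', if_pos hi]
        have := abs_pos.mpr (hv i)
        linarith
    rw [hη, hθ] at hlt
    exact lt_irrefl _ hlt
  have h1 := hanti.sperner
  rw [h𝒜, Finset.card_image_of_injective _ hF] at h1
  exact h1

/-- `(2n+1) C(2n,n)^2 ≤ 16^n`. -/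
lemma central_sq (n : ℕ) : (2 * n + 1) * (Nat.centralBinom n) ^ 2 ≤ 16 ^ n := by
  induction n with
  | zero => simp
  | succ n ih =>
    have h := Nat.succ_mul_centralBinom_succ n
    have h2 : (n + 1) ^ 2 * ((2 * (n + 1) + 1) * Nat.centralBinom (n + 1) ^ 2)
        ≤ (n + 1) ^ 2 * 16 ^ (n + 1) := by
      calc (n + 1) ^ 2 * ((2 * (n + 1) + 1) * Nat.centralBinom (n + 1) ^ 2)
          = (2 * n + 3) * ((n + 1) * Nat.centralBinom (n + 1)) ^ 2 := by ring
        _ = (2 * n + 3) * (2 * (2 * n + 1) * Nat.centralBinom n) ^ 2 := by rw [h]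
        _ = (4 * (2 * n + 1) * (2 * n + 3)) * ((2 * n + 1) * Nat.centralBinom n ^ 2) := by ring
        _ ≤ (4 * (2 * n + 1) * (2 * n + 3)) * 16 ^ n := Nat.mul_le_mul_left _ ih
        _ ≤ ((n + 1) ^ 2 * 16) * 16 ^ n := Nat.mul_le_mul_right _ (by nlinarith)
        _ = (n + 1) ^ 2 * 16 ^ (n + 1) := by ring
    exact Nat.le_of_mul_le_mul_left h2 (by positivity)

/-- `C(s, s/2) / 2^s`. -/
noncomputable def rho (s : ℕ) : ℝ := (s.choose (s / 2) : ℝ) / 2 ^ s

lemma rho_nonneg (s : ℕ) : 0 ≤ rho s := by unfold rho; positivity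

lemma rho_even (m : ℕ) : rho (2 * m) = (Nat.centralBinom m : ℝ) / 4 ^ m := by
  unfold rho
  rw [Nat.mul_div_cancel_left _ (by norm_num), Nat.centralBinom_eq_two_mul_choose, pow_mul]
  norm_num

lemma rho_odd (m : ℕ) : rho (2 * m + 1) = (Nat.centralBinom (m + 1) : ℝ) / 4 ^ (m + 1) := by
  unfold rho
  have h1 : (2 * m + 1) / 2 = m := by omega
  rw [h1]
  have h2 : Nat.centralBinom (m + 1) = 2 * (2 * m + 1).choose m := by
    rw [Nat.centralBinom_eq_two_mul_choose]
    have : 2 * (m + 1) = (2 * m + 1) + 1 := by ring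
    rw [this, Nat.choose_succ_succ]
    have h3 : (2 * m + 1).choose (m + 1) = (2 * m + 1).choose m := by
      rw [← Nat.choose_symm_of_eq_add]; omega
    rw [h3]; ring
  rw [h2]
  push_cast
  rw [div_eq_div_iff (by positivity) (by positivity)]
  have : (4 : ℝ) ^ (m + 1) = 2 * 2 ^ (2 * m + 1) := by
    rw [show (4 : ℝ) = 2 ^ 2 by norm_num, ← pow_mul]
    rw [← pow_succ']
    congr 1
  rw [this]; ring

lemma rho_sq (s : ℕ) : rho s ^ 2 ≤ 1 / (s + 1) := by
  rcases Nat.even_or_odd' s with ⟨m, rfl | rfl⟩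
  · rw [rho_even, div_pow, div_le_div_iff₀ (by positivity) (by positivity)]
    have h := central_sq m
    have h' : ((2 * m + 1 : ℕ) : ℝ) * (Nat.centralBinom m : ℝ) ^ 2 ≤ 16 ^ m := by exact_mod_cast h
    have h4 : ((4 : ℝ) ^ m) ^ 2 = 16 ^ m := by
      rw [← pow_mul, mul_comm, pow_mul]; norm_num
    rw [h4]
    push_cast at h' ⊢
    nlinarith
  · rw [rho_odd, div_pow, div_le_div_iff₀ (by positivity) (by positivity)]
    have h := central_sq (m + 1)
    have h' : ((2 * (m + 1) + 1 : ℕ) : ℝ) * (Nat.centralBinom (m + 1) : ℝ) ^ 2 ≤ 16 ^ (m + 1) := by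
      exact_mod_cast h
    have h4 : ((4 : ℝ) ^ (m + 1)) ^ 2 = 16 ^ (m + 1) := by
      rw [← pow_mul, mul_comm, pow_mul]; norm_num
    rw [h4]
    push_cast at h' ⊢
    nlinarith [sq_nonneg (Nat.centralBinom (m + 1) : ℝ)]

lemma rho_le_sqrt (s : ℕ) : rho s ≤ 1 / Real.sqrt (s + 1) := by
  have h := rho_sq s
  have h0 := rho_nonneg s
  rw [← Real.sqrt_sq h0]
  calc Real.sqrt (rho s ^ 2) ≤ Real.sqrt (1 / (s + 1)) := Real.sqrt_le_sqrt h
    _ = 1 / Real.sqrt (s + 1) := by rw [Real.sqrt_div zero_le_one, Real.sqrt_one]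

lemma rho_le_one (s : ℕ) : rho s ≤ 1 := by
  have h := rho_sq s
  have h0 := rho_nonneg s
  have h1 : (1 : ℝ) / (s + 1) ≤ 1 := by
    rw [div_le_one (by positivity)]
    have : (0 : ℝ) ≤ s := Nat.cast_nonneg s
    linarith
  nlinarith

lemma rho_le_three (s : ℕ) (hs : 3 ≤ s) : rho s ≤ 3 / 8 := by
  by_cases h8 : 8 ≤ s
  · have h := rho_sq s
    have h0 := rho_nonneg s
    have h1 : (1 : ℝ) / (s + 1) ≤ 1 / 9 := by
      apply div_le_div_of_nonneg_left (by norm_num) (by norm_num)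
      have : (8 : ℝ) ≤ s := by exact_mod_cast h8
      linarith
    nlinarith
  · have h7 : s ≤ 7 := by omega
    interval_cases s <;> simp [rho, Nat.choose] <;> norm_num

end Vale.Agent.P160
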