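import Vale.Agent.P160.Count
import Vale.Agent.P160.LO

/-!
Large corank of principal submatrices is superexponentially unlikely.
-/

namespace Vale.Agent.P160

open Finset

variable {V : Type*} [Fintype V] [DecidableEq V]

/-- The symmetric sign matrix of a colouring. -/
def A (ω : Sym2 V → Bool) (i j : V) : ℝ := sgn (ω s(i, j))

lemma A_symm (ω : Sym2 V → Bool) (i j : V) : A ω i j = A ω j i := by
  unfold A; rw [Sym2.eq_swap]

lemma sgn_inj {a b : Bool} (h : sgn a = sgn b) : a = b := by
  cases a <;> cases b <;> simp [sgn] at h <;> first | rfl | (exfalso; linarith)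

lemma sgn_ne_zero (a : Bool) : sgn a ≠ 0 := by cases a <;> simp [sgn]

/-- The row structure of a symmetric matrix of rank at most `|I|` on `I ∪ D`. -/
def Cor (I D : Finset V) (ω : Sym2 V → Bool) : Prop :=
  (∀ j ∈ D, ∃ c : V → ℝ, ∀ l ∈ I ∪ D, A ω j l = ∑ i ∈ I, c i * A ω i l) ∧
  (∀ x : V → ℝ, (∀ l ∈ I, ∑ i ∈ I, x i * A ω i l = 0) → ∀ i ∈ I, x i = 0)

lemma P_Cor (I D : Finset V) (hID : Disjoint I D) :
    P (Sym2 V) (Cor I D) ≤ 1 / 2 ^ ((D.card + 1).choose 2) := by
  classical
  have hc : Function.Injective (Sym2.map (Subtype.val : {x // x ∈ D} → V)) :=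
    Sym2.map.injective Subtype.val_injective
  have h := P_le_of_resample (Sym2.map (Subtype.val : {x // x ∈ D} → V)) hc (Cor I D) 1 ?_
  · have hcard : Fintype.card (Sym2 {x // x ∈ D}) = (D.card + 1).choose 2 := by
      rw [Sym2.card]; simp
    rw [hcard] at h
    exact h
  · intro ω
    have : (univ.filter (fun η : Sym2 {x // x ∈ D} → Bool =>
        Cor I D (Function.extend (Sym2.map Subtype.val) η ω))).card ≤ 1 := by
      rw [Finset.card_le_one]
      intro η hη θ hθ
      simp only [mem_filter, mem_univ, true_and] at hη hθ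
      set M := Function.extend (Sym2.map (Subtype.val : {x // x ∈ D} → V)) η ω with hM
      set M' := Function.extend (Sym2.map (Subtype.val : {x // x ∈ D} → V)) θ ω with hM'
      have hoff : ∀ i ∈ I, ∀ l, A M i l = A M' i l := by
        intro i hi l
        have hn : ¬ ∃ e, Sym2.map (Subtype.val : {x // x ∈ D} → V) e = s(i, l) := by
          rintro ⟨e, he⟩
          have h1 : i ∈ Sym2.map (Subtype.val : {x // x ∈ D} → V) e := by
            rw [he]; exact Sym2.mem_mk_left _ _
          obtain ⟨x, -, hx⟩ := Sym2.mem_map.mp h1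
          exact (Finset.disjoint_left.mp hID hi) (hx ▸ x.2)
        unfold A
        rw [hM, hM', Function.extend_apply' _ _ _ hn, Function.extend_apply' _ _ _ hn]
      have hon : ∀ j l : {x // x ∈ D}, A M j l = sgn (η s(j, l)) := by
        intro j l
        unfold A
        rw [hM]
        have : s((j : V), (l : V)) = Sym2.map (Subtype.val : {x // x ∈ D} → V) s(j, l) := rfl
        rw [this, hc.extend_apply]
      have hon' : ∀ j l : {x // x ∈ D}, A M' j l = sgn (θ s(j, l)) := by
        intro j l
        unfold A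
        rw [hM']
        have : s((j : V), (l : V)) = Sym2.map (Subtype.val : {x // x ∈ D} → V) s(j, l) := rfl
        rw [this, hc.extend_apply]
      funext e
      induction e using Sym2.ind with
      | _ j l =>
        apply sgn_inj
        rw [← hon, ← hon']
        obtain ⟨c, hcc⟩ := hη.1 j j.2
        obtain ⟨c', hcc'⟩ := hθ.1 j j.2
        have hcc1 : ∀ i ∈ I, c i - c' i = 0 := by
          refine hη.2 (fun i => c i - c' i) fun m hm => ?_
          have e1 := hcc m (Finset.mem_union_left _ hm)
          have e2 := hcc' m (Finset.mem_union_left _ hm)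
          have e3 : A M j m = A M' j m := by
            rw [A_symm M, A_symm M', hoff m hm]
          simp only [sub_mul, Finset.sum_sub_distrib]
          rw [← e1, e3, e2, sub_eq_zero]
          exact Finset.sum_congr rfl fun i hi => by rw [hoff i hi]
        rw [hcc l (Finset.mem_union_right _ l.2), hcc' l (Finset.mem_union_right _ l.2)]
        refine Finset.sum_congr rfl fun i hi => ?_
        rw [hoff i hi, sub_eq_zero.mp (hcc1 i hi)]
    exact_mod_cast this

/-- Vectors supported in `S` killed by the rows in `R`. -/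
def Ker (ω : Sym2 V → Bool) (S R : Finset V) : Submodule ℝ (V → ℝ) where
  carrier := {w | (∀ i, i ∉ S → w i = 0) ∧ ∀ i ∈ R, ∑ j, A ω i j * w j = 0}
  add_mem' := by
    rintro a b ⟨ha, ha'⟩ ⟨hb, hb'⟩
    refine ⟨fun i hi => by simp [ha i hi, hb i hi], fun i hi => ?_⟩
    simp only [Pi.add_apply, mul_add, Finset.sum_add_distrib, ha' i hi, hb' i hi, add_zero]
  zero_mem' := ⟨fun _ _ => rfl, fun i _ => by simp⟩
  smul_mem' := by
    rintro c a ⟨ha, ha'⟩
    refine ⟨fun i hi => by simp [ha i hi], fun i hi => ?_⟩
    have : ∑ j, A ω i j * (c • a) j = c * ∑ j, A ω i j * a j := by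
      rw [Finset.mul_sum]
      refine Finset.sum_congr rfl fun j _ => ?_
      simp only [Pi.smul_apply, smul_eq_mul]; ring
    rw [this, ha' i hi, mul_zero]

lemma mem_Ker {ω : Sym2 V → Bool} {S R : Finset V} {w : V → ℝ} :
    w ∈ Ker ω S R ↔ (∀ i, i ∉ S → w i = 0) ∧ ∀ i ∈ R, ∑ j, A ω i j * w j = 0 := Iff.rfl

/-- Vectors supported in `S`. -/
def Sup (S : Finset V) : Submodule ℝ (V → ℝ) where
  carrier := {w | ∀ i, i ∉ S → w i = 0}
  add_mem' := by
    rintro a b ha hb i hi
    simp [ha i hi, hb i hi]
  zero_mem' := fun _ _ => rfl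
  smul_mem' := by
    rintro c a ha i hi
    simp [ha i hi]

lemma finrank_Sup (S : Finset V) : Module.finrank ℝ (Sup S) ≤ S.card := by
  classical
  let f : Sup S →ₗ[ℝ] ({x // x ∈ S} → ℝ) :=
    { toFun := fun w i => (w : V → ℝ) i
      map_add' := fun a b => rfl
      map_smul' := fun c a => rfl }
  have hf : Function.Injective f := by
    intro a b hab
    apply Subtype.ext
    funext i
    by_cases hi : i ∈ S
    · exact congrFun hab ⟨i, hi⟩
    · rw [a.2 i hi, b.2 i hi]
  have h := LinearMap.finrank_le_finrank_of_injective hf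
  simpa using h

/-- Large kernel on a principal submatrix gives the row structure `Cor`. -/
lemma exists_Cor (ω : Sym2 V → Bool) (S : Finset V) (k : ℕ)
    (hk : k ≤ Module.finrank ℝ (Ker ω S S)) :
    ∃ I D : Finset V, Disjoint I D ∧ I ∪ D = S ∧ k ≤ D.card ∧ Cor I D ω := by
  classical
  let r : V → (V → ℝ) := fun i l => if l ∈ S then A ω i l else 0
  obtain ⟨b, hbS, -, hspan, hli⟩ := exists_linearIndepOn_extension (K := ℝ) (v := r)
    (s := ∅) (t := (S : Set V)) (linearIndepOn_empty ℝ r) (Set.empty_subset _)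
  have hbfin : b.Finite := Set.Finite.subset S.finite_toSet hbS
  set I : Finset V := hbfin.toFinset with hI
  have hIb : (I : Set V) = b := by rw [hI]; exact hbfin.coe_toFinset
  have hIS : I ⊆ S := by
    intro i hi
    have : i ∈ b := by rw [← hIb]; exact hi
    exact hbS this
  have hcomb : ∀ j ∈ S, ∃ c : V → ℝ, ∀ l ∈ S, A ω j l = ∑ i ∈ I, c i * A ω i l := by
    intro j hj
    have h1 : r j ∈ Submodule.span ℝ (r '' (I : Set V)) := by
      rw [hIb]; exact hspan ⟨j, hj, rfl⟩
    rw [Submodule.mem_span_image_finset_iff_exists_fun'] at h1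
    obtain ⟨c, hc⟩ := h1
    refine ⟨c, fun l hl => ?_⟩
    have h2 := congrFun hc l
    simp only [Finset.sum_apply, Pi.smul_apply, smul_eq_mul, r, hl, if_true] at h2
    exact h2.symm
  have hli' : LinearIndepOn ℝ r (I : Set V) := by rw [hIb]; exact hli
  have hind : ∀ x : V → ℝ, (∀ l ∈ I, ∑ i ∈ I, x i * A ω i l = 0) → ∀ i ∈ I, x i = 0 := by
    intro x hx
    refine linearIndepOn_finset_iff.mp hli' x ?_
    funext l
    simp only [Finset.sum_apply, Pi.smul_apply, smul_eq_mul, r, Pi.zero_apply]
    by_cases hl : l ∈ S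
    · simp only [hl, if_true]
      obtain ⟨c, hc⟩ := hcomb l hl
      calc ∑ i ∈ I, x i * A ω i l = ∑ i ∈ I, x i * ∑ i' ∈ I, c i' * A ω i' i := by
            refine Finset.sum_congr rfl fun i hi => ?_
            rw [A_symm, hc i (hIS hi)]
        _ = ∑ i' ∈ I, c i' * ∑ i ∈ I, x i * A ω i i' := by
            simp only [Finset.mul_sum]
            rw [Finset.sum_comm]
            refine Finset.sum_congr rfl fun i' _ => Finset.sum_congr rfl fun i _ => ?_
            rw [A_symm ω i' i]; ring
        _ = 0 := by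
            refine Finset.sum_eq_zero fun i' hi' => ?_
            rw [hx i' hi', mul_zero]
    · simp [hl]
  refine ⟨I, S \ I, Finset.disjoint_sdiff, Finset.union_sdiff_of_subset hIS, ?_, ?_, hind⟩
  · -- rank count
    have hU : Submodule.span ℝ (r '' (I : Set V)) ≤ Sup S := by
      rw [Submodule.span_le]
      rintro _ ⟨i, -, rfl⟩ l hl
      simp [r, hl]
    have hK : Ker ω S S ≤ Sup S := fun w hw => hw.1
    have hinf : Submodule.span ℝ (r '' (I : Set V)) ⊓ Ker ω S S = ⊥ := by
      rw [eq_bot_iff]
      rintro w ⟨hw1, hw2⟩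
      rw [Submodule.mem_bot]
      have horth : ∀ u ∈ Submodule.span ℝ (r '' (I : Set V)), ∑ l, u l * w l = 0 := by
        intro u hu
        refine Submodule.span_induction ?_ ?_ ?_ ?_ hu
        · rintro _ ⟨i, hi, rfl⟩
          have := hw2.2 i (hIS hi)
          rw [← this]
          refine Finset.sum_congr rfl fun l _ => ?_
          by_cases hl : l ∈ S
          · simp [r, hl]
          · simp [r, hl, hw2.1 l hl]
        · simp
        · intro a b _ _ ha hb
          simp only [Pi.add_apply, add_mul, Finset.sum_add_distrib, ha, hb, add_zero]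
        · intro c a _ ha
          simp only [Pi.smul_apply, smul_eq_mul, mul_assoc]
          rw [← Finset.mul_sum, ha, mul_zero]
      have h0 := horth w hw1
      funext l
      have h1 : ∀ l, 0 ≤ w l * w l := fun l => mul_self_nonneg _
      have h2 := (Finset.sum_eq_zero_iff_of_nonneg (fun l _ => h1 l)).mp h0 l (mem_univ _)
      simpa using h2
    have h1 := Submodule.finrank_sup_add_finrank_inf_eq (Submodule.span ℝ (r '' (I : Set V)))
      (Ker ω S S)
    rw [hinf, finrank_bot, add_zero] at h1
    have h2 : Module.finrank ℝ ↥(Submodule.span ℝ (r '' (I : Set V)) ⊔ Ker ω S S) ≤ S.card :=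
      (Submodule.finrank_mono (sup_le hU hK)).trans (finrank_Sup S)
    have h3 : Module.finrank ℝ (Submodule.span ℝ (r '' (I : Set V))) = I.card := by
      have h4 := finrank_span_eq_card (R := ℝ) (b := fun i : (I : Set V) => r i) hli'
      rw [Set.image_eq_range]
      rw [h4]; simp
    rw [Finset.card_sdiff_of_subset hIS]
    omega
  · intro j hj
    obtain ⟨c, hc⟩ := hcomb j (Finset.mem_sdiff.mp hj).1
    refine ⟨c, fun l hl => hc l ?_⟩
    rw [Finset.union_sdiff_of_subset hIS] at hl
    exact hl

end Vale.Agent.P160
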