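import Mathlib

/-!
Counting colourings by resampling some coordinates.
-/

namespace Vale.Agent.P160

open Finset

variable {ι κ : Type*} [Fintype ι] [DecidableEq ι] [Fintype κ] [DecidableEq κ]

/-- Proportion of colourings satisfying an event. -/
noncomputable def P (ι : Type*) [Fintype ι] [DecidableEq ι] (E : (ι → Bool) → Prop) : ℝ :=
  by classical exact ((univ.filter (fun ω : ι → Bool => E ω)).card : ℝ) / 2 ^ Fintype.card ι

lemma P_def (E : (ι → Bool) → Prop) [DecidablePred E] :
    P ι E = ((univ.filter (fun ω : ι → Bool => E ω)).card : ℝ) / 2 ^ Fintype.card ι := by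
  unfold P
  congr!

lemma P_nonneg (E : (ι → Bool) → Prop) : 0 ≤ P ι E := by
  classical
  rw [P_def]; positivity

lemma P_mono {E F : (ι → Bool) → Prop} (h : ∀ ω, E ω → F ω) : P ι E ≤ P ι F := by
  classical
  rw [P_def, P_def]
  apply div_le_div_of_nonneg_right _ (by positivity)
  exact_mod_cast Finset.card_le_card (Finset.monotone_filter_right _ (fun ω _ hω => h ω hω))

lemma P_union {α : Type*} (s : Finset α) (E : α → (ι → Bool) → Prop) :
    P ι (fun ω => ∃ a ∈ s, E a ω) ≤ ∑ a ∈ s, P ι (E a) := by
  classical
  rw [P_def (fun ω => ∃ a ∈ s, E a ω), Finset.sum_congr rfl (fun a _ => P_def (E a)),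
    ← Finset.sum_div]
  apply div_le_div_of_nonneg_right _ (by positivity)
  have h1 : (univ.filter (fun ω : ι → Bool => ∃ a ∈ s, E a ω)) ⊆
      s.biUnion (fun a => univ.filter (fun ω => E a ω)) := by
    intro ω hω
    simp only [mem_filter, mem_univ, true_and, mem_biUnion] at hω ⊢
    exact hω
  calc ((univ.filter (fun ω : ι → Bool => ∃ a ∈ s, E a ω)).card : ℝ)
      ≤ ((s.biUnion (fun a => univ.filter (fun ω => E a ω))).card : ℝ) := by
        exact_mod_cast Finset.card_le_card h1
    _ ≤ ∑ a ∈ s, ((univ.filter (fun ω => E a ω)).card : ℝ) := by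
        exact_mod_cast Finset.card_biUnion_le

lemma P_or (E F : (ι → Bool) → Prop) : P ι (fun ω => E ω ∨ F ω) ≤ P ι E + P ι F := by
  classical
  rw [P_def (fun ω => E ω ∨ F ω), P_def E, P_def F, ← add_div]
  apply div_le_div_of_nonneg_right _ (by positivity)
  have h1 : (univ.filter (fun ω : ι → Bool => E ω ∨ F ω)) =
      univ.filter (fun ω => E ω) ∪ univ.filter (fun ω => F ω) := by
    ext ω; simp
  rw [h1]
  exact_mod_cast Finset.card_union_le _ _

/-- The swap map behind resampling. -/
noncomputable def swapEquiv (c : κ → ι) (hc : Function.Injective c) :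
    (ι → Bool) × (κ → Bool) ≃ (ι → Bool) × (κ → Bool) where
  toFun p := (Function.extend c p.2 p.1, p.1 ∘ c)
  invFun p := (Function.extend c p.2 p.1, p.1 ∘ c)
  left_inv := by
    rintro ⟨ω, η⟩
    refine Prod.ext ?_ ?_
    · funext i
      by_cases hi : ∃ k, c k = i
      · obtain ⟨k, rfl⟩ := hi
        simp [hc.extend_apply]
      · simp [Function.extend_apply' _ _ _ hi]
    · funext k
      simp [hc.extend_apply]
  right_inv := by
    rintro ⟨ω, η⟩
    refine Prod.ext ?_ ?_
    · funext i
      by_cases hi : ∃ k, c k = i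
      · obtain ⟨k, rfl⟩ := hi
        simp [hc.extend_apply]
      · simp [Function.extend_apply' _ _ _ hi]
    · funext k
      simp [hc.extend_apply]

open Classical in
/-- Resampling identity. -/
lemma count_extend (c : κ → ι) (hc : Function.Injective c) (E : (ι → Bool) → Prop) :
    (univ.filter (fun ω : ι → Bool => E ω)).card * 2 ^ Fintype.card κ =
      ∑ ω : ι → Bool, (univ.filter (fun η : κ → Bool => E (Function.extend c η ω))).card := by
  have h1 : ∑ ω : ι → Bool, (univ.filter (fun η : κ → Bool => E (Function.extend c η ω))).card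
      = (univ.filter (fun p : (ι → Bool) × (κ → Bool) => E (Function.extend c p.2 p.1))).card := by
    rw [Finset.card_filter, Fintype.sum_prod_type]
    refine Finset.sum_congr rfl fun ω _ => ?_
    rw [Finset.card_filter]
  have h2 : (univ.filter (fun p : (ι → Bool) × (κ → Bool) => E (Function.extend c p.2 p.1))).card
      = (univ.filter (fun p : (ι → Bool) × (κ → Bool) => E p.1)).card := by
    refine Finset.card_bij (fun p _ => swapEquiv c hc p) ?_ ?_ ?_
    · intro p hp
      simp only [mem_filter, mem_univ, true_and] at hp ⊢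
      exact hp
    · intro p _ q _ hpq
      exact (swapEquiv c hc).injective hpq
    · intro q hq
      refine ⟨(swapEquiv c hc).symm q, ?_, by simp⟩
      simp only [mem_filter, mem_univ, true_and] at hq ⊢
      have : (swapEquiv c hc ((swapEquiv c hc).symm q)).1 = q.1 := by
        rw [Equiv.apply_symm_apply]
      change E (swapEquiv c hc ((swapEquiv c hc).symm q)).1
      rw [this]; exact hq
  have h3 : (univ.filter (fun p : (ι → Bool) × (κ → Bool) => E p.1)).card
      = (univ.filter (fun ω : ι → Bool => E ω)).card * 2 ^ Fintype.card κ := by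
    have : (univ.filter (fun p : (ι → Bool) × (κ → Bool) => E p.1))
        = (univ.filter (fun ω : ι → Bool => E ω)) ×ˢ (univ : Finset (κ → Bool)) := by
      ext p; simp
    rw [this, Finset.card_product]
    simp
  rw [h1, h2, h3]

open Classical in
/-- Resampling bound. -/
lemma P_le_of_resample (c : κ → ι) (hc : Function.Injective c) (E : (ι → Bool) → Prop) (M : ℝ)
    (h : ∀ ω : ι → Bool,
      ((univ.filter (fun η : κ → Bool => E (Function.extend c η ω))).card : ℝ) ≤ M) :
    P ι E ≤ M / 2 ^ Fintype.card κ := by
  have h1 := count_extend c hc E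
  have h2 : ((univ.filter (fun ω : ι → Bool => E ω)).card : ℝ) * 2 ^ Fintype.card κ =
      ∑ ω : ι → Bool, ((univ.filter (fun η : κ → Bool => E (Function.extend c η ω))).card : ℝ) := by
    exact_mod_cast h1
  have h3 : ∑ ω : ι → Bool, ((univ.filter (fun η : κ → Bool => E (Function.extend c η ω))).card : ℝ)
      ≤ 2 ^ Fintype.card ι * M := by
    calc _ ≤ ∑ ω : ι → Bool, M := Finset.sum_le_sum fun ω _ => h ω
      _ = 2 ^ Fintype.card ι * M := by
        rw [Finset.sum_const, nsmul_eq_mul]
        congr 1
        simp
  rw [P_def, div_le_div_iff₀ (by positivity) (by positivity), h2]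
  linarith

open Classical in
/-- Resampling equality. -/
lemma P_eq_of_resample (c : κ → ι) (hc : Function.Injective c) (E : (ι → Bool) → Prop) (M : ℝ)
    (h : ∀ ω : ι → Bool,
      ((univ.filter (fun η : κ → Bool => E (Function.extend c η ω))).card : ℝ) = M) :
    P ι E = M / 2 ^ Fintype.card κ := by
  have h1 := count_extend c hc E
  have h2 : ((univ.filter (fun ω : ι → Bool => E ω)).card : ℝ) * 2 ^ Fintype.card κ =
      ∑ ω : ι → Bool, ((univ.filter (fun η : κ → Bool => E (Function.extend c η ω))).card : ℝ) := by
    exact_mod_cast h1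
  have h3 : ∑ ω : ι → Bool, ((univ.filter (fun η : κ → Bool => E (Function.extend c η ω))).card : ℝ)
      = 2 ^ Fintype.card ι * M := by
    rw [Finset.sum_congr rfl fun ω _ => h ω, Finset.sum_const, nsmul_eq_mul]
    congr 1
    simp
  rw [P_def, div_eq_div_iff (by positivity) (by positivity), h2, h3]
  ring

end Vale.Agent.P160
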