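import Mathlib

/-!
Symmetric random sign matrices: definitions.
-/

namespace Vale.Agent.P160

/-- The symmetric sign matrix of a two-colouring of the unordered pairs (diagonal included). -/
def symMat (n : ℕ) (ω : Sym2 (Fin n) → Bool) : Matrix (Fin n) (Fin n) ℝ :=
  fun i j => if ω s(i, j) then 1 else -1

/-- Probability of an event for the uniform symmetric sign matrix: the proportion of the
colourings for which the event holds. -/
noncomputable def Pr (n : ℕ) (E : Matrix (Fin n) (Fin n) ℝ → Prop) : ℝ :=
  (Nat.card {ω : Sym2 (Fin n) → Bool // E (symMat n ω)} : ℝ) /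
    (Nat.card (Sym2 (Fin n) → Bool) : ℝ)

end Vale.Agent.P160
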