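import Vale.Agent.P160.IntV

/-!
Structured kernel vectors: the final asymptotic statement.
-/

namespace Vale.Agent.P160

open Finset Filter Topology

/-- Kernel vector with small integer coordinates and few zeros. -/
def In (n : ℕ) (ω : Sym2 (Fin n) → Bool) : Prop :=
  ∃ u : Fin n → ℤ, (∀ i, |(u i : ℝ)| ≤ Real.sqrt n / 200) ∧
    (n : ℝ) - 4 * n / Real.log n ≤ (univ.filter (fun i => (u i : ℝ) ≠ 0)).card ∧
    ∀ i, ∑ j, A ω i j * (u j : ℝ) = 0

lemma In_bound : ∀ᶠ n : ℕ in atTop, P (Sym2 (Fin n)) (In n) * 2 ^ n ≤ Real.exp (-(n : ℝ) / 10) := by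
  classical
  filter_upwards [ev_log_big 40, tendsto_sqrt_nat.eventually_ge_atTop 100, eventually_ge_atTop 3]
    with n h1 h2 h3
  have hn0 : (3 : ℝ) ≤ n := by exact_mod_cast h3
  have hlog0 : 0 < Real.log n := by linarith
  set H : ℕ := ⌊Real.sqrt n / 200⌋₊ with hH
  have hHle : (H : ℝ) ≤ Real.sqrt n / 200 := Nat.floor_le (by positivity)
  set F : Finset (Fin n → ℤ) := (Fintype.piFinset (fun _ : Fin n => Finset.Icc (-(H : ℤ)) H)).filter
    (fun u => (n : ℝ) - 4 * n / Real.log n ≤ (univ.filter (fun i => (u i : ℝ) ≠ 0)).card) with hF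
  have hsub : P (Sym2 (Fin n)) (In n) ≤ P (Sym2 (Fin n)) (fun ω => ∃ u ∈ F,
      ∀ i ∈ (univ : Finset (Fin n)), ∑ j ∈ (univ : Finset (Fin n)), A ω i j * (u j : ℝ) = 0) := by
    refine P_mono fun ω => ?_
    rintro ⟨u, hu1, hu2, hu3⟩
    refine ⟨u, ?_, fun i _ => hu3 i⟩
    rw [hF, Finset.mem_filter, Fintype.mem_piFinset]
    refine ⟨fun i => ?_, hu2⟩
    rw [Finset.mem_Icc, ← abs_le]
    have h4 : ((u i).natAbs : ℝ) ≤ Real.sqrt n / 200 := by
      have := hu1 i
      rw [Nat.cast_natAbs, Int.cast_abs]; exact this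
    have h5 : (u i).natAbs ≤ H := Nat.le_floor h4
    rw [Int.abs_eq_natAbs]
    exact_mod_cast h5
  have hcard : (F.card : ℝ) ≤ ((2 * H + 1 : ℕ) : ℝ) ^ n := by
    have e1 : F.card ≤ (2 * H + 1) ^ n := by
      refine (Finset.card_filter_le _ _).trans ?_
      rw [Fintype.card_piFinset, Finset.prod_const, Finset.card_univ, Fintype.card_fin,
        Int.card_Icc]
      apply Nat.pow_le_pow_left
      omega
    exact_mod_cast e1
  have hl2 : Real.log 2 < 0.6931471808 := Real.log_two_lt_d9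
  have hl2' : 0.6931471803 < Real.log 2 := Real.log_two_gt_d9
  have hl50 : 3.8 ≤ Real.log 50 := by
    have e1 : Real.log 50 = 5 * Real.log 2 + Real.log (25 / 16) := by
      rw [show (50 : ℝ) = 2 ^ 5 * (25 / 16) by norm_num, Real.log_mul (by norm_num) (by norm_num),
        Real.log_pow]
      norm_num
    have e2 : (1 : ℝ) - (25 / 16)⁻¹ ≤ Real.log (25 / 16) :=
      Real.one_sub_inv_le_log_of_pos (by norm_num)
    rw [e1]
    norm_num at e2
    linarith
  -- each term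
  set z : ℝ := 4 * n / Real.log n with hz
  have hz40 : z ≤ n / 10 := by
    rw [hz, div_le_div_iff₀ hlog0 (by norm_num)]
    nlinarith
  have hzlog : z * Real.log n = 4 * n := by rw [hz]; field_simp
  have hz0 : 0 ≤ z := by rw [hz]; positivity
  have hterm : ∀ u ∈ F, P (Sym2 (Fin n)) (fun ω => ∀ i ∈ (univ : Finset (Fin n)),
      ∑ j ∈ (univ : Finset (Fin n)), A ω i j * (u j : ℝ) = 0) ≤
      Real.exp (-((n - z) * (Real.log n - Real.log 2 - 1)) / 2) := by
    intro u hu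
    have hu2 : (n : ℝ) - z ≤ (univ.filter (fun i => (u i : ℝ) ≠ 0)).card :=
      (Finset.mem_filter.mp hu).2
    refine (P_fixed (fun j => (u j : ℝ)) univ (fun _ => 0)).trans ?_
    set s := (univ.filter (fun i => (u i : ℝ) ≠ 0)).card with hs
    have hs2 : (n : ℝ) / 2 ≤ s := by linarith
    have hs1 : 1 ≤ s := by
      have : (0 : ℝ) < s := by linarith
      exact_mod_cast this
    refine (GG_le s hs1).trans ?_
    apply Real.exp_le_exp.mpr
    have e1 : Real.log n - Real.log 2 ≤ Real.log s := by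
      rw [← Real.log_div (by linarith) (by norm_num)]
      exact Real.log_le_log (by linarith) hs2
    have e2 : (n - z) * (Real.log n - Real.log 2 - 1) ≤ (s : ℝ) * (Real.log s - 1) := by
      apply mul_le_mul hu2 (by linarith) (by linarith) (by linarith)
    linarith
  have hlogH : Real.log ((2 * H + 1 : ℕ) : ℝ) ≤ Real.log n / 2 - Real.log 50 := by
    have e1 : ((2 * H + 1 : ℕ) : ℝ) ≤ Real.sqrt n / 50 := by
      push_cast; linarith
    have e2 : Real.log (Real.sqrt n / 50) = Real.log n / 2 - Real.log 50 := by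
      rw [Real.log_div (by positivity) (by norm_num), Real.log_sqrt (by positivity)]
    rw [← e2]
    exact Real.log_le_log (by positivity) e1
  have hpowH : ((2 * H + 1 : ℕ) : ℝ) ^ n = Real.exp (n * Real.log ((2 * H + 1 : ℕ) : ℝ)) := by
    rw [mul_comm (n : ℝ), Real.exp_mul, Real.exp_log (by positivity), Real.rpow_natCast]
  have h2n : (2 : ℝ) ^ n = Real.exp (n * Real.log 2) := by
    rw [mul_comm, Real.exp_mul, Real.exp_log (by norm_num), Real.rpow_natCast]
  calc P (Sym2 (Fin n)) (In n) * 2 ^ n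
      ≤ (∑ u ∈ F, Real.exp (-((n - z) * (Real.log n - Real.log 2 - 1)) / 2)) * 2 ^ n := by
        apply mul_le_mul_of_nonneg_right _ (by positivity)
        exact hsub.trans ((P_union _ _).trans (Finset.sum_le_sum hterm))
    _ = F.card * Real.exp (-((n - z) * (Real.log n - Real.log 2 - 1)) / 2) * 2 ^ n := by
        rw [Finset.sum_const, nsmul_eq_mul]
    _ ≤ Real.exp (n * Real.log ((2 * H + 1 : ℕ) : ℝ)) *
          Real.exp (-((n - z) * (Real.log n - Real.log 2 - 1)) / 2) * Real.exp (n * Real.log 2) := by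
        rw [← h2n, ← hpowH]
        apply mul_le_mul_of_nonneg_right _ (by positivity)
        exact mul_le_mul_of_nonneg_right hcard (Real.exp_pos _).le
    _ = Real.exp (n * Real.log ((2 * H + 1 : ℕ) : ℝ) +
          -((n - z) * (Real.log n - Real.log 2 - 1)) / 2 + n * Real.log 2) := by
        rw [Real.exp_add, Real.exp_add]
    _ ≤ Real.exp (-(n : ℝ) / 10) := by
        apply Real.exp_le_exp.mpr
        have e1 : (n : ℝ) * Real.log ((2 * H + 1 : ℕ) : ℝ) ≤ n * (Real.log n / 2 - Real.log 50) :=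
          mul_le_mul_of_nonneg_left hlogH (by linarith)
        have e2 : (n - z) * (Real.log n - Real.log 2 - 1) =
            n * Real.log n - z * Real.log n - (n - z) * (Real.log 2 + 1) := by ring
        rw [e2, hzlog]
        nlinarith

/-- Structured kernel vectors. -/
def St (n : ℕ) (ω : Sym2 (Fin n) → Bool) : Prop :=
  ∃ v : Fin n → ℝ, v ≠ 0 ∧ (∀ i, ∑ j, A ω i j * v j = 0) ∧
    (4 * (n : ℝ) / Real.log n ≤ Nat.card {i : Fin n // v i = 0} ∨
      ∀ i, ∃ m : ℤ, v i = m ∧ |(m : ℝ)| ≤ Real.sqrt n / 200)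

lemma St_le (n : ℕ) : P (Sym2 (Fin n)) (St n) ≤ P (Sym2 (Fin n)) (Sp n) +
    P (Sym2 (Fin n)) (In n) := by
  refine le_trans (P_mono fun ω => ?_) (P_or (Sp n) (In n))
  rintro ⟨v, hv, hk, h⟩
  by_cases hz : 4 * (n : ℝ) / Real.log n ≤ Nat.card {i : Fin n // v i = 0}
  · exact Or.inl ⟨v, hv, hk, hz⟩
  · right
    have h' := h.resolve_left hz
    choose u hu1 hu2 using h'
    have hvu : v = fun i => (u i : ℝ) := funext hu1
    refine ⟨u, hu2, ?_, fun i => ?_⟩
    · have h2 := zeros_supp v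
      rw [hvu] at h2 hz
      push Not at hz
      linarith
    · have := hk i
      rw [hvu] at this
      exact this

lemma Sp_le (n : ℕ) : P (Sym2 (Fin n)) (Sp n) ≤ P (Sym2 (Fin n)) (St n) :=
  P_mono fun _ ⟨v, hv, hk, h⟩ => ⟨v, hv, hk, Or.inl h⟩

theorem St_limit : Tendsto (fun n : ℕ => P (Sym2 (Fin n)) (St n) * 2 ^ n / (n : ℝ) ^ 2) atTop
    (𝓝 1) := by
  have hlow : Tendsto (fun n : ℕ => (1 - 1 / (n : ℝ)) - 256 * ((n : ℝ) ^ 2 / 2 ^ n)) atTop
      (𝓝 ((1 - 0) - 256 * 0)) := by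
    refine (tendsto_const_nhds.sub tendsto_one_div_atTop_nhds_zero_nat).sub
      (Tendsto.const_mul _ ?_)
    have := tendsto_pow_const_div_const_pow_of_one_lt 2 (show (1 : ℝ) < 2 by norm_num)
    exact this
  have hexp : Tendsto (fun n : ℕ => Real.exp (-(n : ℝ) / 10)) atTop (𝓝 0) := by
    refine Real.tendsto_exp_atBot.comp ?_
    have h1 : Tendsto (fun n : ℕ => (n : ℝ) / 10) atTop atTop :=
      tendsto_natCast_atTop_atTop.atTop_div_const (by norm_num)
    have h2 := tendsto_neg_atTop_atBot.comp h1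
    refine h2.congr fun n => ?_
    simp only [Function.comp_apply]; ring
  have hup : Tendsto (fun n : ℕ => (1 - 1 / (n : ℝ)) + 5 * Real.exp (-(n : ℝ) / 10)) atTop
      (𝓝 ((1 - 0) + 5 * 0)) :=
    (tendsto_const_nhds.sub tendsto_one_div_atTop_nhds_zero_nat).add (hexp.const_mul _)
  have e1 : ((1 : ℝ) - 0) - 256 * 0 = 1 := by norm_num
  have e2 : ((1 : ℝ) - 0) + 5 * 0 = 1 := by norm_num
  rw [e1] at hlow
  rw [e2] at hup
  refine tendsto_of_tendsto_of_tendsto_of_le_of_le' hlow hup ?_ ?_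
  · filter_upwards [ev_log_big 8, eventually_ge_atTop 4] with n h1 h2
    have hn4 : (4 : ℝ) ≤ n := by exact_mod_cast h2
    have hlog0 : 0 < Real.log n := by linarith
    have hcond : 4 * (n : ℝ) / Real.log n ≤ n - 2 := by
      rw [div_le_iff₀ hlog0]
      nlinarith
    have h3 := (Sp_lower n hcond).trans (Sp_le n)
    have h2n : (0 : ℝ) < 2 ^ n := by positivity
    have hn2 : (0 : ℝ) < (n : ℝ) ^ 2 := by positivity
    rw [le_div_iff₀ hn2]
    refine le_trans ?_ (mul_le_mul_of_nonneg_right h3 h2n.le)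
    have h4 : (4 : ℝ) ^ n = 256 * 4 ^ (n - 4) := by
      have : n = (n - 4) + 4 := by omega
      conv_lhs => rw [this]
      rw [pow_add]; ring
    have h42 : (4 : ℝ) ^ n = 2 ^ n * 2 ^ n := by
      rw [← mul_pow]; norm_num
    have h4p : (0 : ℝ) < 4 ^ (n - 4) := by positivity
    have e3 : ((n : ℝ) ^ 2 - n) ^ 2 / 4 ^ (n - 4) = 256 * ((n : ℝ) ^ 2 - n) ^ 2 / (2 ^ n * 2 ^ n) := by
      rw [← h42, h4]
      field_simp
    rw [e3]
    have e4 : (((n : ℝ) ^ 2 - n) / 2 ^ n - 256 * ((n : ℝ) ^ 2 - n) ^ 2 / (2 ^ n * 2 ^ n)) * 2 ^ n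
        = ((n : ℝ) ^ 2 - n) - 256 * ((n : ℝ) ^ 2 - n) ^ 2 / 2 ^ n := by
      field_simp
    rw [e4]
    have e5 : ((1 - 1 / (n : ℝ)) - 256 * ((n : ℝ) ^ 2 / 2 ^ n)) * (n : ℝ) ^ 2 =
        ((n : ℝ) ^ 2 - n) - 256 * ((n : ℝ) ^ 2 * (n : ℝ) ^ 2) / 2 ^ n := by
      field_simp
    rw [e5]
    have e6 : ((n : ℝ) ^ 2 - n) ^ 2 ≤ (n : ℝ) ^ 2 * (n : ℝ) ^ 2 := by
      have : (0 : ℝ) ≤ (n : ℝ) ^ 2 - n := by nlinarith
      nlinarith
    have e7 : 256 * ((n : ℝ) ^ 2 - n) ^ 2 / 2 ^ n ≤ 256 * ((n : ℝ) ^ 2 * (n : ℝ) ^ 2) / 2 ^ n := by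
      apply div_le_div_of_nonneg_right _ h2n.le
      linarith
    linarith
  · filter_upwards [In_bound, Err_bound, eventually_ge_atTop 4] with n h1 h2 h3
    have hn4 : (4 : ℝ) ≤ n := by exact_mod_cast h3
    have h2n : (0 : ℝ) < 2 ^ n := by positivity
    have hn2 : (0 : ℝ) < (n : ℝ) ^ 2 := by positivity
    rw [div_le_iff₀ hn2]
    have h4 := St_le n
    have h5 := Sp_upper n
    have hexp0 := Real.exp_pos (-(n : ℝ) / 10)
    calc P (Sym2 (Fin n)) (St n) * 2 ^ n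
        ≤ ((((n : ℝ) ^ 2 - n) / 2 ^ n + Err n) + P (Sym2 (Fin n)) (In n)) * 2 ^ n := by
          apply mul_le_mul_of_nonneg_right _ h2n.le
          linarith
      _ = ((n : ℝ) ^ 2 - n) + Err n * 2 ^ n + P (Sym2 (Fin n)) (In n) * 2 ^ n := by
          field_simp
      _ ≤ ((n : ℝ) ^ 2 - n) + 4 * Real.exp (-(n : ℝ) / 10) + Real.exp (-(n : ℝ) / 10) := by
          linarith
      _ = ((n : ℝ) ^ 2 - n) + 5 * Real.exp (-(n : ℝ) / 10) := by ring
      _ ≤ ((n : ℝ) ^ 2 - n) + 5 * Real.exp (-(n : ℝ) / 10) * (n : ℝ) ^ 2 := by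
          have : (1 : ℝ) ≤ (n : ℝ) ^ 2 := by nlinarith
          nlinarith
      _ = ((1 - 1 / (n : ℝ)) + 5 * Real.exp (-(n : ℝ) / 10)) * (n : ℝ) ^ 2 := by
          field_simp

end Vale.Agent.P160
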