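import Vale.Agent.P160.Main

/-!
Kernel vectors with small integer coordinates.
-/

namespace Vale.Agent.P160

open Finset Filter Topology

section

variable {ι κ : Type*} [Fintype ι] [DecidableEq ι] [Fintype κ] [DecidableEq κ]

/-- Averaging form of the resampling identity. -/
lemma P_average (c : κ → ι) (hc : Function.Injective c) (E : (ι → Bool) → Prop)
    (F : (κ → Bool) → Prop) (B : ℝ) (hB : 0 ≤ B)
    (h : ∀ η : κ → Bool, P ι (fun ω => E (Function.extend c η ω)) ≤ B)
    (hF : ∀ η ω, E (Function.extend c η ω) → F η) :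
    P ι E ≤ P κ F * B := by
  classical
  have h1 := count_extend c hc E
  have h2 : ((univ.filter (fun ω : ι → Bool => E ω)).card : ℝ) * 2 ^ Fintype.card κ =
      ∑ ω : ι → Bool, ((univ.filter (fun η : κ → Bool => E (Function.extend c η ω))).card : ℝ) := by
    exact_mod_cast h1
  have h3 : ∑ ω : ι → Bool, ((univ.filter (fun η : κ → Bool => E (Function.extend c η ω))).card : ℝ)
      = ∑ η : κ → Bool, ((univ.filter (fun ω : ι → Bool => E (Function.extend c η ω))).card : ℝ) := by
    simp only [Finset.card_filter, Nat.cast_sum]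
    rw [Finset.sum_comm]
  have h4 : ∀ η : κ → Bool, ((univ.filter (fun ω : ι → Bool => E (Function.extend c η ω))).card : ℝ)
      ≤ (if F η then 1 else 0) * (B * 2 ^ Fintype.card ι) := by
    intro η
    by_cases hη : F η
    · rw [if_pos hη, one_mul]
      have := h η
      rw [P_def, div_le_iff₀ (by positivity)] at this
      exact this
    · rw [if_neg hη, zero_mul]
      have : (univ.filter (fun ω : ι → Bool => E (Function.extend c η ω))) = ∅ := by
        rw [Finset.filter_eq_empty_iff]
        intro ω _ hω
        exact hη (hF η ω hω)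
      rw [this]; simp
  rw [P_def E, P_def F, div_mul_eq_mul_div, div_le_div_iff₀ (by positivity) (by positivity), h2, h3]
  calc ∑ η : κ → Bool, ((univ.filter (fun ω : ι → Bool => E (Function.extend c η ω))).card : ℝ)
      ≤ ∑ η : κ → Bool, (if F η then (1 : ℝ) else 0) * (B * 2 ^ Fintype.card ι) :=
        Finset.sum_le_sum fun η _ => h4 η
    _ = ((univ.filter (fun η : κ → Bool => F η)).card : ℝ) * (B * 2 ^ Fintype.card ι) := by
        rw [← Finset.sum_mul, Finset.card_filter]; push_cast; rfl
    _ = ((univ.filter (fun η : κ → Bool => F η)).card : ℝ) * B * 2 ^ Fintype.card ι := by ring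

/-- Littlewood-Offord with zero coefficients allowed. -/
lemma P_row (v : ι → ℝ) (a : ℝ) :
    P ι (fun η => ∑ i, sgn (η i) * v i = a) ≤ rho (univ.filter (fun i => v i ≠ 0)).card := by
  classical
  let κ₀ := {i // v i ≠ 0}
  have hc : Function.Injective (Subtype.val : κ₀ → ι) := Subtype.val_injective
  have hcard : Fintype.card κ₀ = (univ.filter (fun i => v i ≠ 0)).card := by
    rw [Fintype.card_subtype]
  have h := P_le_of_resample (Subtype.val : κ₀ → ι) hc
    (fun η => ∑ i, sgn (η i) * v i = a)
    (((univ.filter (fun i => v i ≠ 0)).card.choose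
      ((univ.filter (fun i => v i ≠ 0)).card / 2) : ℕ) : ℝ) ?_
  · rw [hcard] at h
    exact h
  · intro ω
    have hsum : ∀ η : κ₀ → Bool, ∑ i, sgn (Function.extend Subtype.val η ω i) * v i
        = ∑ k : κ₀, sgn (η k) * v k := by
      intro η
      have e1 : ∑ i, sgn (Function.extend Subtype.val η ω i) * v i =
          ∑ i ∈ univ.filter (fun i => v i ≠ 0), sgn (Function.extend Subtype.val η ω i) * v i := by
        symm
        apply Finset.sum_subset (Finset.subset_univ _)
        intro i _ hi
        have : v i = 0 := by simpa using hi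
        rw [this, mul_zero]
      rw [e1, Finset.sum_subtype _ (p := fun i => v i ≠ 0) (fun x => by simp)]
      refine Finset.sum_congr rfl fun k _ => ?_
      rw [hc.extend_apply]
    have hlo := littlewood_offord (κ := κ₀) (fun k => v k) (fun k => k.2) a
    rw [hcard] at hlo
    refine le_trans (le_of_eq ?_) (Nat.cast_le.mpr hlo)
    congr 1
    congr 1
    ext η
    rw [Finset.mem_filter, Finset.mem_filter, hsum]

end

/-- Product of the Littlewood-Offord bounds. -/
noncomputable def GG : ℕ → ℝ
  | 0 => 1
  | n + 1 => GG n * rho (n + 1)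

lemma GG_nonneg (n : ℕ) : 0 ≤ GG n := by
  induction n with
  | zero => simp [GG]
  | succ n ih => exact mul_nonneg ih (rho_nonneg _)

variable {V : Type*} [Fintype V] [DecidableEq V]

/-- Row exposure for a fixed vector. -/
lemma P_fixed (v : V → ℝ) (T : Finset V) : ∀ b : V → ℝ,
    P (Sym2 V) (fun ω => ∀ i ∈ T, ∑ j ∈ T, A ω i j * v j = b i) ≤
      GG (T.filter (fun j => v j ≠ 0)).card := by
  classical
  induction T using Finset.induction_on with
  | empty =>
    intro b
    rw [P_def]
    simp [GG, div_self]
  | insert a T ha ih =>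
    intro b
    let κ := {j // j ∈ insert a T}
    let c : κ → Sym2 V := fun j => s(a, (j : V))
    have hc : Function.Injective c := by
      intro j j' h
      exact Subtype.ext (Sym2.congr_right.mp h)
    have hrowcard : (univ.filter (fun k : κ => v k ≠ 0)).card =
        ((insert a T).filter (fun j => v j ≠ 0)).card := by
      refine Finset.card_bij (fun k _ => (k : V)) ?_ ?_ ?_
      · intro k hk
        rw [Finset.mem_filter] at hk ⊢
        exact ⟨k.2, hk.2⟩
      · intro k _ k' _ h
        exact Subtype.ext h
      · intro j hj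
        rw [Finset.mem_filter] at hj
        exact ⟨⟨j, hj.1⟩, by simpa using hj.2, rfl⟩
    have havg := P_average c hc
      (fun ω => ∀ i ∈ insert a T, ∑ j ∈ insert a T, A ω i j * v j = b i)
      (fun η : κ → Bool => ∑ k : κ, sgn (η k) * v k = b a)
      (GG (T.filter (fun j => v j ≠ 0)).card) (GG_nonneg _) ?_ ?_
    · refine havg.trans ?_
      have hrow := P_row (ι := κ) (fun k => v k) (b a)
      rw [hrowcard] at hrow
      calc P κ (fun η : κ → Bool => ∑ k : κ, sgn (η k) * v k = b a) *
            GG (T.filter (fun j => v j ≠ 0)).card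
          ≤ rho ((insert a T).filter (fun j => v j ≠ 0)).card *
            GG (T.filter (fun j => v j ≠ 0)).card :=
            mul_le_mul_of_nonneg_right hrow (GG_nonneg _)
        _ ≤ GG ((insert a T).filter (fun j => v j ≠ 0)).card := by
            by_cases hva : v a ≠ 0
            · rw [Finset.filter_insert, if_pos hva, Finset.card_insert_of_notMem (by simp [ha])]
              simp only [GG]
              rw [mul_comm]
            · rw [Finset.filter_insert, if_neg hva]
              calc _ ≤ 1 * GG (T.filter (fun j => v j ≠ 0)).card :=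
                    mul_le_mul_of_nonneg_right (rho_le_one _) (GG_nonneg _)
                _ = _ := one_mul _
    · intro η
      -- for fixed first row the rest is an event on T
      have hext : ∀ (i : V) (hi : i ∈ insert a T) (ω : Sym2 V → Bool),
          A (Function.extend c η ω) a i = sgn (η ⟨i, hi⟩) := by
        intro i hi ω
        unfold A
        have : s(a, i) = c ⟨i, hi⟩ := rfl
        rw [this, hc.extend_apply]
      have hin : ∀ i ∈ T, ∀ j ∈ T, ∀ ω : Sym2 V → Bool,
          A (Function.extend c η ω) i j = A ω i j := by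
        intro i hi j hj ω
        have hn : ¬ ∃ k, c k = s(i, j) := by
          rintro ⟨k, hk⟩
          have h' : s(a, (k : V)) = s(i, j) := hk
          rw [Sym2.eq_iff] at h'
          rcases h' with ⟨h1, -⟩ | ⟨h1, -⟩
          · exact ha (h1 ▸ hi)
          · exact ha (h1 ▸ hj)
        unfold A
        rw [Function.extend_apply' _ _ _ hn]
      refine le_trans (P_mono fun ω hω => ?_)
        (ih (fun i => b i - (if hi : i ∈ insert a T then sgn (η ⟨i, hi⟩) else 0) * v a))
      intro i hi
      have hi' : i ∈ insert a T := Finset.mem_insert_of_mem hi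
      have h1 := hω i hi'
      rw [Finset.sum_insert ha, A_symm _ i a, hext i hi' ω] at h1
      rw [dif_pos hi', ← h1]
      have h2 : ∑ j ∈ T, A (Function.extend c η ω) i j * v j = ∑ j ∈ T, A ω i j * v j :=
        Finset.sum_congr rfl fun j hj => by rw [hin i hi j hj ω]
      rw [h2]; ring
    · intro η ω hω
      have h1 := hω a (Finset.mem_insert_self _ _)
      rw [← h1, ← Finset.sum_coe_sort (insert a T)
        (fun j => A (Function.extend c η ω) a j * v j)]
      refine Finset.sum_congr rfl fun k _ => ?_
      have : A (Function.extend c η ω) a k = sgn (η k) := by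
        unfold A
        have : s(a, (k : V)) = c k := rfl
        rw [this, hc.extend_apply]
      rw [this]

lemma GG_sq (s : ℕ) : GG s ^ 2 * (Nat.factorial s : ℝ) ≤ 1 := by
  induction s with
  | zero => simp [GG]
  | succ s ih =>
    have h1 := rho_sq (s + 1)
    have h2 : rho (s + 1) ^ 2 * ((s : ℝ) + 1) ≤ 1 := by
      have h3 : (0 : ℝ) < ((s + 1 : ℕ) : ℝ) + 1 := by positivity
      rw [le_div_iff₀ h3] at h1
      push_cast at h1
      have h4 : 0 ≤ rho (s + 1) ^ 2 := sq_nonneg _
      nlinarith
    have h5 : 0 ≤ GG s ^ 2 * (Nat.factorial s : ℝ) := by positivity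
    calc GG (s + 1) ^ 2 * (Nat.factorial (s + 1) : ℝ)
        = (GG s ^ 2 * (Nat.factorial s : ℝ)) * (rho (s + 1) ^ 2 * ((s : ℝ) + 1)) := by
          simp only [GG, Nat.factorial_succ]; push_cast; ring
      _ ≤ 1 * 1 := mul_le_mul ih h2 (by positivity) (by norm_num)
      _ = 1 := one_mul 1

lemma GG_le (s : ℕ) (hs : 1 ≤ s) : GG s ≤ Real.exp (-((s : ℝ) * (Real.log s - 1)) / 2) := by
  have h1 := GG_sq s
  have hs0 : (0 : ℝ) < s := by exact_mod_cast hs
  have hfac : Real.exp ((s : ℝ) * (Real.log s - 1)) ≤ (Nat.factorial s : ℝ) := by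
    have h2 := Real.pow_div_factorial_le_exp (x := (s : ℝ)) hs0.le s
    rw [div_le_iff₀ (by positivity)] at h2
    have h3 : (s : ℝ) ^ s = Real.exp (s * Real.log s) := by
      rw [mul_comm, Real.exp_mul, Real.exp_log hs0, Real.rpow_natCast]
    rw [h3] at h2
    have h4 : Real.exp ((s : ℝ) * (Real.log s - 1)) = Real.exp (s * Real.log s) * Real.exp (-s) := by
      rw [← Real.exp_add]; congr 1; ring
    rw [h4]
    calc Real.exp (s * Real.log s) * Real.exp (-s)
        ≤ (Real.exp s * (Nat.factorial s : ℝ)) * Real.exp (-s) :=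
          mul_le_mul_of_nonneg_right h2 (Real.exp_pos _).le
      _ = (Nat.factorial s : ℝ) * (Real.exp s * Real.exp (-s)) := by ring
      _ = (Nat.factorial s : ℝ) := by rw [← Real.exp_add]; simp
  have h5 : GG s ^ 2 ≤ Real.exp (-((s : ℝ) * (Real.log s - 1)) / 2) ^ 2 := by
    rw [← Real.exp_nat_mul]
    have h6 : GG s ^ 2 * Real.exp ((s : ℝ) * (Real.log s - 1)) ≤ 1 :=
      (mul_le_mul_of_nonneg_left hfac (sq_nonneg _)).trans h1
    have h7 : ((2 : ℕ) : ℝ) * (-((s : ℝ) * (Real.log s - 1)) / 2) =
        -((s : ℝ) * (Real.log s - 1)) := by push_cast; ring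
    rw [h7, Real.exp_neg, ← one_div, le_div_iff₀ (Real.exp_pos _)]
    exact h6
  exact (pow_le_pow_iff_left₀ (GG_nonneg _) (Real.exp_pos _).le (by norm_num)).mp h5

end Vale.Agent.P160
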