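import Vale.Agent.P160.Asym
import Vale.Agent.P160.Defs

/-!
Sparse kernel vectors: exact asymptotics.
-/

namespace Vale.Agent.P160

open Finset Filter Topology

/-- There is a nonzero kernel vector with at least `4n/log n` zero coordinates. -/
def Sp (n : ℕ) (ω : Sym2 (Fin n) → Bool) : Prop :=
  ∃ v : Fin n → ℝ, v ≠ 0 ∧ (∀ i, ∑ j, A ω i j * v j = 0) ∧
    4 * (n : ℝ) / Real.log n ≤ Nat.card {i : Fin n // v i = 0}

/-- Index set of pairs of columns with a sign. -/
def Lam (n : ℕ) : Finset (Fin n × Fin n × Bool) := univ.filter (fun a => a.1 < a.2.1)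

lemma card_Lam (n : ℕ) : ((Lam n).card : ℝ) = (n : ℝ) ^ 2 - n := by
  classical
  set U : Finset (Fin n × Fin n) := univ.filter (fun a => a.1 < a.2) with hU
  have h1 : (Lam n).card = U.card * 2 := by
    have : Lam n = (U ×ˢ (univ : Finset Bool)).image (fun p => (p.1.1, p.1.2, p.2)) := by
      ext ⟨i, j, b⟩
      simp only [Lam, hU, mem_filter, mem_univ, true_and, mem_image, mem_product, and_true,
        Prod.mk.injEq, Prod.exists]
      constructor
      · intro h; exact ⟨i, j, b, h, rfl, rfl, rfl⟩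
      · rintro ⟨i', j', b', h, rfl, rfl, rfl⟩; exact h
    rw [this, Finset.card_image_of_injective, Finset.card_product]
    · simp
    · rintro ⟨⟨i, j⟩, b⟩ ⟨⟨i', j'⟩, b'⟩ h
      simp only [Prod.mk.injEq] at h
      obtain ⟨rfl, rfl, rfl⟩ := h
      rfl
  set U' : Finset (Fin n × Fin n) := univ.filter (fun a => a.2 < a.1) with hU'
  set D : Finset (Fin n × Fin n) := univ.filter (fun a => a.1 = a.2) with hD
  have h2 : U'.card = U.card := by
    refine Finset.card_bij (fun p _ => (p.2, p.1)) ?_ ?_ ?_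
    · intro p hp
      simp only [hU, hU', mem_filter, mem_univ, true_and] at hp ⊢
      exact hp
    · rintro ⟨a, b⟩ _ ⟨c, d⟩ _ h
      simp only [Prod.mk.injEq] at h
      obtain ⟨rfl, rfl⟩ := h
      rfl
    · rintro ⟨a, b⟩ hp
      simp only [hU, mem_filter, mem_univ, true_and] at hp
      exact ⟨(b, a), by simpa [hU'] using hp, rfl⟩
  have h3 : D.card = n := by
    have : D = (univ : Finset (Fin n)).image (fun i => (i, i)) := by
      ext ⟨a, b⟩
      simp [hD, eq_comm]
    rw [this, Finset.card_image_of_injective _ (fun a b h => (Prod.mk.inj h).1)]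
    simp
  have h4 : U.card + U'.card + D.card = n * n := by
    have e1 : Disjoint U U' := by
      rw [Finset.disjoint_left]
      intro p hp hp'
      simp only [hU, hU', mem_filter, mem_univ, true_and] at hp hp'
      exact lt_asymm hp hp'
    have e2 : Disjoint (U ∪ U') D := by
      rw [Finset.disjoint_left]
      intro p hp hp'
      simp only [hU, hU', hD, mem_union, mem_filter, mem_univ, true_and] at hp hp'
      rcases hp with h | h
      · exact h.ne hp'
      · exact h.ne' hp'
    rw [← Finset.card_union_of_disjoint e1, ← Finset.card_union_of_disjoint e2]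
    have : U ∪ U' ∪ D = univ := by
      ext p
      simp only [hU, hU', hD, mem_union, mem_filter, mem_univ, true_and, iff_true]
      rcases lt_trichotomy p.1 p.2 with h | h | h
      · exact Or.inl (Or.inl h)
      · exact Or.inr h
      · exact Or.inl (Or.inr h)
    rw [this]; simp
  have h5 : U.card * 2 + n = n * n := by omega
  have h6 : ((U.card * 2 : ℕ) : ℝ) + n = n * n := by exact_mod_cast h5
  rw [h1]
  push_cast at h6 ⊢
  nlinarith

/-- Number of zeros and size of the support. -/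
lemma zeros_supp {n : ℕ} (v : Fin n → ℝ) :
    (Nat.card {i : Fin n // v i = 0} : ℝ) + (univ.filter (fun i => v i ≠ 0)).card = n := by
  classical
  have h1 : Nat.card {i : Fin n // v i = 0} = (univ.filter (fun i => v i = 0)).card := by
    rw [Nat.card_eq_fintype_card, Fintype.card_subtype]
  have h2 := Finset.card_filter_add_card_filter_not (s := (univ : Finset (Fin n)))
    (fun i => v i = 0)
  rw [h1]
  have h3 : (univ.filter (fun i => v i = 0)).card + (univ.filter (fun i => v i ≠ 0)).card = n := by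
    simpa using h2
  exact_mod_cast h3

/-- Small circuits. -/
lemma small_circuit {n : ℕ} (ω : Sym2 (Fin n) → Bool) (S : Finset (Fin n)) (hS : S.Nonempty)
    (hlt : S.card < 3) (hC : Circ S Sᶜ ω) : ∃ a ∈ Lam n, PairE a.1 a.2.1 a.2.2 ω := by
  classical
  obtain ⟨v, hv, hk, -⟩ := hC
  have hv0 : ∀ i, i ∉ S → v i = 0 := fun i hi => by_contra fun hne => hi ((hv i).mp hne)
  have hpos := hS.card_pos
  have hcases : S.card = 1 ∨ S.card = 2 := by omega
  rcases hcases with h1 | h2
  · obtain ⟨i, rfl⟩ := Finset.card_eq_one.mp h1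
    have h3 := hk i
    rw [sum_support _ v {i} hv0, Finset.sum_singleton] at h3
    rcases mul_eq_zero.mp h3 with h | h
    · exact absurd h (sgn_ne_zero _)
    · exact absurd h ((hv i).mpr (Finset.mem_singleton_self i))
  · obtain ⟨i, j, hij, rfl⟩ := Finset.card_eq_two.mp h2
    have hvi : v i ≠ 0 := (hv i).mpr (by simp)
    have hvj : v j ≠ 0 := (hv j).mpr (by simp)
    have hrel : ∀ m, A ω m i * v i + A ω m j * v j = 0 := by
      intro m
      have h3 := hk m
      rw [sum_support _ v {i, j} hv0, Finset.sum_pair hij] at h3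
      exact h3
    -- the ratio is a sign
    have hsgn : ∀ b : Bool, sgn b * sgn b = 1 := by intro b; cases b <;> simp [sgn]
    have key : ∀ (i j : Fin n), i < j → (∀ m, A ω m i * v i + A ω m j * v j = 0) → v i ≠ 0 →
        v j ≠ 0 → ∃ a ∈ Lam n, PairE a.1 a.2.1 a.2.2 ω := by
      intro i j hij hrel hvi hvj
      refine ⟨(i, j, bmul (ω s(i, i)) (ω s(i, j))), by simp [Lam, hij], ?_⟩
      intro m
      apply sgn_inj
      rw [sgn_bmul, sgn_bmul]
      have e1 := hrel i
      have e2 := hrel m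
      unfold A at e1 e2
      -- v i = - sgn(ii) sgn(ij) v j
      have e3 : v i = -(sgn (ω s(i, i)) * sgn (ω s(i, j)) * v j) := by
        have : sgn (ω s(i, i)) * (sgn (ω s(i, i)) * v i + sgn (ω s(i, j)) * v j) = 0 := by
          rw [e1, mul_zero]
        have h4 : sgn (ω s(i, i)) * sgn (ω s(i, i)) * v i
            + sgn (ω s(i, i)) * sgn (ω s(i, j)) * v j = 0 := by linarith
        rw [hsgn, one_mul] at h4
        linarith
      rw [e3] at e2
      have h5 : (sgn (ω s(m, j)) - sgn (ω s(m, i)) * (sgn (ω s(i, i)) * sgn (ω s(i, j)))) * v j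
          = 0 := by linarith
      have h6 : sgn (ω s(m, j)) = sgn (ω s(m, i)) * (sgn (ω s(i, i)) * sgn (ω s(i, j))) := by
        rcases mul_eq_zero.mp h5 with h | h
        · linarith
        · exact absurd h hvj
      rw [h6]
      have h7 := hsgn (ω s(i, i))
      have h8 := hsgn (ω s(i, j))
      calc sgn (ω s(m, i)) = sgn (ω s(m, i)) * ((sgn (ω s(i, i)) * sgn (ω s(i, i))) *
            (sgn (ω s(i, j)) * sgn (ω s(i, j)))) := by rw [h7, h8]; ring
        _ = _ := by ring
    rcases lt_or_gt_of_ne hij with h | h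
    · exact key i j h hrel hvi hvj
    · exact key j i h (fun m => by rw [add_comm]; exact hrel m) hvj hvi

lemma Sp_upper (n : ℕ) : P (Sym2 (Fin n)) (Sp n) ≤
    ((n : ℝ) ^ 2 - n) / 2 ^ n + Err n := by
  classical
  have h1 : P (Sym2 (Fin n)) (Sp n) ≤ P (Sym2 (Fin n)) (fun ω =>
      (∃ a ∈ Lam n, PairE a.1 a.2.1 a.2.2 ω) ∨ ∃ S ∈ Fam n, Circ S Sᶜ ω) := by
    refine P_mono fun ω => ?_
    rintro ⟨v, hv, hk, hz⟩
    obtain ⟨S, hS, hSc, hC⟩ := exists_circuit ω v hv hk
    by_cases h3 : S.card < 3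
    · exact Or.inl (small_circuit ω S hS h3 hC)
    · right
      refine ⟨S, ?_, hC⟩
      unfold Fam
      rw [Finset.mem_filter]
      refine ⟨mem_univ _, by omega, ?_⟩
      have h4 := zeros_supp v
      have h5 : (S.card : ℝ) ≤ (univ.filter (fun i => v i ≠ 0)).card := by exact_mod_cast hSc
      linarith
  refine h1.trans ((P_or _ _).trans (add_le_add ?_ ?_))
  · refine (P_union _ _).trans ?_
    calc ∑ a ∈ Lam n, P (Sym2 (Fin n)) (PairE a.1 a.2.1 a.2.2)
        = ∑ a ∈ Lam n, 1 / 2 ^ n := by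
          refine Finset.sum_congr rfl fun a ha => ?_
          have : a.1 < a.2.1 := (Finset.mem_filter.mp ha).2
          rw [P_PairE _ _ this.ne]; simp
      _ = ((n : ℝ) ^ 2 - n) / 2 ^ n := by
          rw [Finset.sum_const, nsmul_eq_mul, card_Lam]; ring
      _ ≤ _ := le_rfl
  · have h2 := P_circuits (V := Fin n) (KK n) (Fam n)
    rw [Fintype.card_fin] at h2
    exact h2

lemma Sp_lower (n : ℕ) (hn : 4 * (n : ℝ) / Real.log n ≤ n - 2) :
    ((n : ℝ) ^ 2 - n) / 2 ^ n - ((n : ℝ) ^ 2 - n) ^ 2 / 4 ^ (n - 4) ≤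
      P (Sym2 (Fin n)) (Sp n) := by
  classical
  have h1 : P (Sym2 (Fin n)) (fun ω => ∃ a ∈ Lam n, PairE a.1 a.2.1 a.2.2 ω) ≤
      P (Sym2 (Fin n)) (Sp n) := by
    refine P_mono fun ω => ?_
    rintro ⟨⟨i, j, σ⟩, ha, hP⟩
    have hij : i < j := (Finset.mem_filter.mp ha).2
    have hP' : ∀ m, ω s(m, i) = bmul σ (ω s(m, j)) := hP
    refine ⟨fun k => if k = i then 1 else if k = j then -sgn σ else 0, ?_, ?_, ?_⟩
    · intro h
      have := congrFun h i
      simp at this
    · intro m
      have hs : ∀ k, k ∉ ({i, j} : Finset (Fin n)) →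
          (fun k => if k = i then (1 : ℝ) else if k = j then -sgn σ else 0) k = 0 := by
        intro k hk
        simp only [mem_insert, mem_singleton, not_or] at hk
        simp [hk.1, hk.2]
      rw [sum_support _ _ {i, j} hs, Finset.sum_pair hij.ne]
      simp only [if_true, hij.ne', if_false]
      unfold A
      rw [hP' m, sgn_bmul]
      ring
    · have h2 := zeros_supp (fun k : Fin n => if k = i then (1 : ℝ) else if k = j then -sgn σ else 0)
      have h3 : (univ.filter (fun k : Fin n =>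
          (if k = i then (1 : ℝ) else if k = j then -sgn σ else 0) ≠ 0)).card ≤ 2 := by
        have : (univ.filter (fun k : Fin n =>
          (if k = i then (1 : ℝ) else if k = j then -sgn σ else 0) ≠ 0)) ⊆ {i, j} := by
          intro k hk
          simp only [mem_filter, mem_univ, true_and] at hk
          simp only [mem_insert, mem_singleton]
          by_contra hc
          push Not at hc
          apply hk
          simp [hc.1, hc.2]
        exact (Finset.card_le_card this).trans Finset.card_le_two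
      have h4 : ((univ.filter (fun k : Fin n =>
          (if k = i then (1 : ℝ) else if k = j then -sgn σ else 0) ≠ 0)).card : ℝ) ≤ 2 := by
        exact_mod_cast h3
      linarith
  refine le_trans ?_ h1
  refine le_trans ?_ (P_lower (Lam n) (fun a => PairE a.1 a.2.1 a.2.2))
  have h2 : ∑ a ∈ Lam n, P (Sym2 (Fin n)) (PairE a.1 a.2.1 a.2.2)
      = ((n : ℝ) ^ 2 - n) / 2 ^ n := by
    calc ∑ a ∈ Lam n, P (Sym2 (Fin n)) (PairE a.1 a.2.1 a.2.2)
        = ∑ a ∈ Lam n, 1 / 2 ^ n := by
          refine Finset.sum_congr rfl fun a ha => ?_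
          have : a.1 < a.2.1 := (Finset.mem_filter.mp ha).2
          rw [P_PairE _ _ this.ne]; simp
      _ = ((n : ℝ) ^ 2 - n) / 2 ^ n := by
          rw [Finset.sum_const, nsmul_eq_mul, card_Lam]; ring
  have h3 : ∑ p ∈ (Lam n).offDiag, P (Sym2 (Fin n)) (fun ω => PairE p.1.1 p.1.2.1 p.1.2.2 ω ∧
      PairE p.2.1 p.2.2.1 p.2.2.2 ω) ≤ ((n : ℝ) ^ 2 - n) ^ 2 / 4 ^ (n - 4) := by
    calc _ ≤ ∑ p ∈ (Lam n).offDiag, (1 : ℝ) / 4 ^ (n - 4) := by
          refine Finset.sum_le_sum fun p hp => ?_
          obtain ⟨hp1, hp2, hp3⟩ := Finset.mem_offDiag.mp hp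
          exact P_joint _ _ _ _ (Finset.mem_filter.mp hp1).2 (Finset.mem_filter.mp hp2).2 _ _ hp3
      _ = ((Lam n).offDiag.card : ℝ) / 4 ^ (n - 4) := by
          rw [Finset.sum_const, nsmul_eq_mul]; ring
      _ ≤ ((n : ℝ) ^ 2 - n) ^ 2 / 4 ^ (n - 4) := by
          apply div_le_div_of_nonneg_right _ (by positivity)
          rw [← card_Lam, Finset.offDiag_card]
          have : (Lam n).card * (Lam n).card - (Lam n).card ≤ (Lam n).card ^ 2 := by
            rw [sq]; exact Nat.sub_le _ _
          exact_mod_cast this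
  linarith

/-- Error term. -/
lemma Err_bound : ∀ᶠ n : ℕ in atTop, Err n * 2 ^ n ≤ 4 * Real.exp (-(n : ℝ) / 10) := by
  filter_upwards [ev_EE (1 / 20) (by norm_num), ev_log_big 40, eventually_ge_atTop 3] with n h1 h2 h3
  have hs := sum_bound n h3 (by linarith) (by linarith) h2
  have hn0 : (0 : ℝ) ≤ n := Nat.cast_nonneg n
  have h2n : (2 : ℝ) ^ n = Real.exp (n * Real.log 2) := by
    rw [mul_comm, Real.exp_mul, Real.exp_log (by norm_num), Real.rpow_natCast]
  have t2 : (∑ S ∈ Fam n, (n + 1 : ℝ) ^ KK n * rho S.card ^ (n - S.card - KK n)) * 2 ^ n ≤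
      3 * Real.exp (-(n : ℝ) / 10) := by
    calc _ ≤ (3 * Real.exp (-(n : ℝ) * (Real.log 2 + 1 / 10))) * 2 ^ n :=
          mul_le_mul_of_nonneg_right hs (by positivity)
      _ = 3 * (Real.exp (-(n : ℝ) * (Real.log 2 + 1 / 10)) * Real.exp (n * Real.log 2)) := by
          rw [h2n]; ring
      _ = 3 * Real.exp (-(n : ℝ) / 10) := by
          rw [← Real.exp_add]; congr 2; ring
  have t1 : 4 ^ n / (2 : ℝ) ^ (((KK n + 2 : ℕ) * (KK n + 2 : ℕ) : ℝ) / 2) * 2 ^ n ≤
      Real.exp (-(n : ℝ) / 10) := by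
    have hK := KK_ge n
    have hsq : Real.sqrt n * Real.sqrt n = n := Real.mul_self_sqrt hn0
    have hs0 : 0 ≤ Real.sqrt n := Real.sqrt_nonneg _
    have h5 : (8 : ℝ) * n ≤ ((KK n + 2 : ℕ) * (KK n + 2 : ℕ) : ℝ) / 2 := by
      push_cast
      nlinarith
    have h6 : (2 : ℝ) ^ (8 * (n : ℝ)) ≤ (2 : ℝ) ^ (((KK n + 2 : ℕ) * (KK n + 2 : ℕ) : ℝ) / 2) :=
      Real.rpow_le_rpow_of_exponent_le (by norm_num) h5
    have h7 : (2 : ℝ) ^ (8 * (n : ℝ)) = Real.exp (8 * n * Real.log 2) := by
      rw [Real.rpow_def_of_pos (by norm_num)]; congr 1; ring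
    have h4n : (4 : ℝ) ^ n = Real.exp (n * (2 * Real.log 2)) := by
      rw [show (4 : ℝ) = 2 ^ 2 by norm_num, ← pow_mul, show (2 : ℝ) ^ (2 * n) = (2 ^ n) ^ 2 by
        rw [← pow_mul, mul_comm], h2n, ← Real.exp_nat_mul]
      congr 1; push_cast; ring
    have hl2' : 0.6931471803 < Real.log 2 := Real.log_two_gt_d9
    calc 4 ^ n / (2 : ℝ) ^ (((KK n + 2 : ℕ) * (KK n + 2 : ℕ) : ℝ) / 2) * 2 ^ n
        ≤ 4 ^ n / (2 : ℝ) ^ (8 * (n : ℝ)) * 2 ^ n := by
          apply mul_le_mul_of_nonneg_right _ (by positivity)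
          exact div_le_div_of_nonneg_left (by positivity) (by positivity) h6
      _ = Real.exp (n * (2 * Real.log 2) - 8 * n * Real.log 2 + n * Real.log 2) := by
          rw [h7, h4n, h2n, Real.exp_add, Real.exp_sub]
      _ ≤ Real.exp (-(n : ℝ) / 10) := by
          apply Real.exp_le_exp.mpr
          nlinarith
  unfold Err
  rw [add_mul]
  linarith

end Vale.Agent.P160
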