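import Vale.Agent.P160.Sparse

/-!
Pairs of equal or opposite columns.
-/

namespace Vale.Agent.P160

open Finset

variable {V : Type*} [Fintype V] [DecidableEq V]

/-- Multiplication of signs. -/
def bmul (σ b : Bool) : Bool := if σ then b else !b

lemma sgn_bmul (σ b : Bool) : sgn (bmul σ b) = sgn σ * sgn b := by
  cases σ <;> cases b <;> simp [bmul, sgn]

lemma bmul_bmul (σ b : Bool) : bmul σ (bmul σ b) = b := by
  cases σ <;> cases b <;> rfl

lemma eq_bmul_iff (σ a b : Bool) : a = bmul σ b ↔ b = bmul σ a := by
  cases σ <;> cases a <;> cases b <;> simp [bmul]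

/-- Columns `i` and `j` are equal or opposite. -/
def PairE (i j : V) (σ : Bool) (ω : Sym2 V → Bool) : Prop :=
  ∀ m, ω s(m, i) = bmul σ (ω s(m, j))

lemma PairE_symm {i j : V} {σ : Bool} {ω : Sym2 V → Bool} (h : PairE i j σ ω) :
    PairE j i σ ω := fun m => (eq_bmul_iff σ _ _).mp (h m)

lemma P_PairE (i j : V) (hij : i ≠ j) (σ : Bool) :
    P (Sym2 V) (PairE i j σ) = 1 / 2 ^ Fintype.card V := by
  classical
  let c : V → Sym2 V := fun m => s(m, j)
  have hc : Function.Injective c := by
    intro m m' h
    exact Sym2.congr_left.mp h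
  refine P_eq_of_resample c hc (PairE i j σ) 1 ?_
  intro ω
  have hnr : ∀ m, m ≠ j → ¬ ∃ k, c k = s(m, i) := by
    rintro m hm ⟨k, hk⟩
    have h' : s(k, j) = s(m, i) := hk
    rw [Sym2.eq_iff] at h'
    rcases h' with ⟨-, h2⟩ | ⟨-, h2⟩
    · exact hij h2.symm
    · exact hm h2.symm
  have key : ∀ η : V → Bool, PairE i j σ (Function.extend c η ω) ↔
      η = fun m => if m = j then ω s(i, i) else bmul σ (ω s(m, i)) := by
    intro η
    have e1 : ∀ m, m ≠ j → Function.extend c η ω s(m, i) = ω s(m, i) := fun m hm =>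
      Function.extend_apply' _ _ _ (hnr m hm)
    have e2 : ∀ m, Function.extend c η ω s(m, j) = η m := fun m => hc.extend_apply η ω m
    have e3 : Function.extend c η ω s(j, i) = η i := by
      rw [Sym2.eq_swap]; exact e2 i
    constructor
    · intro h
      have hi : η i = bmul σ (ω s(i, i)) := by
        have := h i
        rw [e1 i hij, e2] at this
        exact (eq_bmul_iff σ _ _).mp this
      funext m
      by_cases hm : m = j
      · subst hm
        have := h m
        rw [e3, e2] at this
        rw [if_pos rfl]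
        rw [(eq_bmul_iff σ _ _).mp this, hi, bmul_bmul]
      · rw [if_neg hm]
        have := h m
        rw [e1 m hm, e2] at this
        exact (eq_bmul_iff σ _ _).mp this
    · intro h m
      by_cases hm : m = j
      · subst hm
        rw [e3, e2, h]
        dsimp only
        rw [if_neg hij, if_pos rfl]
      · rw [e1 m hm, e2, h]
        dsimp only
        rw [if_neg hm, bmul_bmul]
  have : (univ.filter (fun η : V → Bool => PairE i j σ (Function.extend c η ω)))
      = {fun m => if m = j then ω s(i, i) else bmul σ (ω s(m, i))} := by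
    ext η
    rw [Finset.mem_filter, Finset.mem_singleton, key]
    simp
  rw [this]
  simp

lemma P_two (i j k l : V) (hij : i ≠ j) (hkl : k ≠ l) (hjk : j ≠ k) (hjl : j ≠ l) (hli : l ≠ i)
    (σ τ : Bool) :
    P (Sym2 V) (fun ω => PairE i j σ ω ∧ PairE k l τ ω) ≤ 1 / 4 ^ (Fintype.card V - 4) := by
  classical
  let κ₁ := {m // m ∈ ({i, j, k, l} : Finset V)ᶜ}
  let c : κ₁ × Bool → Sym2 V := fun p => if p.2 then s((p.1 : V), l) else s((p.1 : V), j)
  have hm : ∀ m : κ₁, (m : V) ≠ i ∧ (m : V) ≠ j ∧ (m : V) ≠ k ∧ (m : V) ≠ l := by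
    intro m
    have := m.2
    rw [Finset.mem_compl] at this
    simp only [mem_insert, mem_singleton, not_or] at this
    exact this
  have hc : Function.Injective c := by
    rintro ⟨m, b⟩ ⟨m', b'⟩ h
    cases b <;> cases b' <;> simp only [c, if_true, Bool.false_eq_true, if_false] at h
    · rw [Sym2.congr_left] at h
      rw [Subtype.ext h]
    · rw [Sym2.eq_iff] at h
      rcases h with ⟨-, h2⟩ | ⟨h1, -⟩
      · exact absurd h2 hjl
      · exact absurd h1 (hm m).2.2.2
    · rw [Sym2.eq_iff] at h
      rcases h with ⟨-, h2⟩ | ⟨h1, -⟩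
      · exact absurd h2.symm hjl
      · exact absurd h1 (hm m).2.1
    · rw [Sym2.congr_left] at h
      rw [Subtype.ext h]
  have hcard : 2 * (Fintype.card V - 4) ≤ Fintype.card (κ₁ × Bool) := by
    rw [Fintype.card_prod, Fintype.card_bool]
    have h1 : Fintype.card κ₁ = (({i, j, k, l} : Finset V)ᶜ).card := Fintype.card_coe _
    have h2 : ({i, j, k, l} : Finset V).card ≤ 4 := Finset.card_le_four
    rw [h1, Finset.card_compl]
    omega
  have h := P_le_of_resample c hc (fun ω => PairE i j σ ω ∧ PairE k l τ ω) 1 ?_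
  · refine h.trans ?_
    have h4 : (4 : ℝ) ^ (Fintype.card V - 4) ≤ 2 ^ Fintype.card (κ₁ × Bool) := by
      rw [show (4 : ℝ) = 2 ^ 2 by norm_num, ← pow_mul]
      exact pow_le_pow_right₀ (by norm_num) hcard
    exact one_div_le_one_div_of_le (by positivity) h4
  · intro ω
    have : (univ.filter (fun η : κ₁ × Bool → Bool =>
        PairE i j σ (Function.extend c η ω) ∧ PairE k l τ (Function.extend c η ω))).card ≤ 1 := by
      rw [Finset.card_le_one]
      intro η hη θ hθ
      simp only [mem_filter, mem_univ, true_and] at hη hθ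
      have hnr : ∀ (m : κ₁) (x : V), (x ≠ j) → (x ≠ l) → ¬ ∃ p, c p = s((m : V), x) := by
        rintro m x hxj hxl ⟨⟨m', b⟩, hp⟩
        cases b
        · simp only [c, Bool.false_eq_true, if_false] at hp
          rw [Sym2.eq_iff] at hp
          rcases hp with ⟨-, h2⟩ | ⟨-, h2⟩
          · exact hxj h2.symm
          · exact (hm m).2.1 h2.symm
        · simp only [c, if_true] at hp
          rw [Sym2.eq_iff] at hp
          rcases hp with ⟨-, h2⟩ | ⟨-, h2⟩
          · exact hxl h2.symm
          · exact (hm m).2.2.2 h2.symm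
      funext ⟨m, b⟩
      have hval : ∀ ξ : κ₁ × Bool → Bool, PairE i j σ (Function.extend c ξ ω) →
          PairE k l τ (Function.extend c ξ ω) →
          ξ (m, false) = bmul σ (ω s((m : V), i)) ∧ ξ (m, true) = bmul τ (ω s((m : V), k)) := by
        intro ξ h1 h2
        constructor
        · have h3 := h1 m
          rw [Function.extend_apply' _ _ _ (hnr m i hij hli.symm)] at h3
          have h4 : Function.extend c ξ ω s((m : V), j) = ξ (m, false) := by
            have : s((m : V), j) = c (m, false) := by simp [c]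
            rw [this, hc.extend_apply]
          rw [h4] at h3
          exact (eq_bmul_iff σ _ _).mp h3
        · have h3 := h2 m
          rw [Function.extend_apply' _ _ _ (hnr m k hjk.symm hkl)] at h3
          have h4 : Function.extend c ξ ω s((m : V), l) = ξ (m, true) := by
            have : s((m : V), l) = c (m, true) := by simp [c]
            rw [this, hc.extend_apply]
          rw [h4] at h3
          exact (eq_bmul_iff τ _ _).mp h3
      have hη' := hval η hη.1 hη.2
      have hθ' := hval θ hθ.1 hθ.2
      cases b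
      · rw [hη'.1, hθ'.1]
      · rw [hη'.2, hθ'.2]
    rw [← Nat.cast_one, Nat.cast_le]
    convert this

/-- Joint probability for two different pairs. -/
lemma P_joint {n : ℕ} (i j k l : Fin n) (hij : i < j) (hkl : k < l) (σ τ : Bool)
    (hne : (i, j, σ) ≠ (k, l, τ)) :
    P (Sym2 (Fin n)) (fun ω => PairE i j σ ω ∧ PairE k l τ ω) ≤ 1 / 4 ^ (n - 4) := by
  classical
  have hn : Fintype.card (Fin n) - 4 = n - 4 := by simp
  have sw1 : ∀ ω : Sym2 (Fin n) → Bool, PairE i j σ ω → PairE j i σ ω := fun ω h => PairE_symm h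
  have sw2 : ∀ ω : Sym2 (Fin n) → Bool, PairE k l τ ω → PairE l k τ ω := fun ω h => PairE_symm h
  by_cases h1 : j = k
  · -- i < j = k < l : use j' = i, l
    subst h1
    have := P_two (V := Fin n) j i j l hij.ne' hkl.ne hij.ne (hij.trans hkl).ne hkl.ne' σ τ
    rw [hn] at this
    exact (P_mono fun ω h => ⟨sw1 ω h.1, h.2⟩).trans this
  by_cases h2 : l = i
  · subst h2
    -- k < l = i < j
    have := P_two (V := Fin n) l j l k hij.ne hkl.ne' hij.ne' (hkl.trans hij).ne'
      (hkl.ne) σ τ
    rw [hn] at this
    exact (P_mono fun ω h => ⟨h.1, sw2 ω h.2⟩).trans this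
  by_cases h3 : j = l
  · subst h3
    by_cases h4 : i = k
    · subst h4
      -- same pair, different signs: impossible
      have hσ : σ ≠ τ := fun h => hne (by rw [h])
      have h0 : P (Sym2 (Fin n)) (fun ω => PairE i j σ ω ∧ PairE i j τ ω) ≤
          P (Sym2 (Fin n)) (fun _ => False) := by
        refine P_mono fun ω h => ?_
        have e1 := h.1 i
        have e2 := h.2 i
        rw [e1] at e2
        cases σ <;> cases τ <;> simp [bmul] at e2 hσ
      have h5 : P (Sym2 (Fin n)) (fun _ => False) = 0 := by
        rw [P_def]; simp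
      rw [h5] at h0
      exact h0.trans (by positivity)
    · -- use i and k
      have := P_two (V := Fin n) j i j k hij.ne' hkl.ne' hij.ne h4 (Ne.symm hkl.ne') σ τ
      rw [hn] at this
      exact (P_mono fun ω h => ⟨sw1 ω h.1, sw2 ω h.2⟩).trans this
  · by_cases h4 : i = k
    · subst h4
      have := P_two (V := Fin n) i j i l hij.ne hkl.ne hij.ne' h3 hkl.ne' σ τ
      rw [hn] at this
      exact this
    · have := P_two (V := Fin n) i j k l hij.ne hkl.ne h1 h3 h2 σ τ
      rw [hn] at this
      exact this

end Vale.Agent.P160
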