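import Vale.Agent.P160.Corank

/-!
Kernel vectors with given support: row exposure.
-/

namespace Vale.Agent.P160

open Finset

variable {V : Type*} [Fintype V] [DecidableEq V]

/-- `S` is a circuit: it is the support of a kernel vector, and the kernel vectors supported in `S`
which are killed by the rows in `S ∪ J` are its multiples. -/
def Circ (S J : Finset V) (ω : Sym2 V → Bool) : Prop :=
  ∃ v : V → ℝ, (∀ i, v i ≠ 0 ↔ i ∈ S) ∧ (∀ i, ∑ j, A ω i j * v j = 0) ∧
    ∀ w ∈ Ker ω S (S ∪ J), ∃ c : ℝ, w = c • v

lemma sum_support (M : V → ℝ) (v : V → ℝ) (S : Finset V) (hv : ∀ i, i ∉ S → v i = 0) :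
    ∑ j, M j * v j = ∑ j ∈ S, M j * v j := by
  symm
  apply Finset.sum_subset (Finset.subset_univ _)
  intro j _ hj
  rw [hv j hj, mul_zero]

lemma P_Circ (S J : Finset V) (hJ : Disjoint S J) :
    P (Sym2 V) (Circ S J) ≤ rho S.card ^ (Fintype.card V - S.card - J.card) := by
  classical
  let κ₁ := {i // i ∈ (S ∪ J)ᶜ}
  let κ₂ := {j // j ∈ S}
  let c : κ₁ × κ₂ → Sym2 V := fun p => s((p.1 : V), (p.2 : V))
  have hc : Function.Injective c := by
    rintro ⟨⟨i, hi⟩, ⟨j, hj⟩⟩ ⟨⟨i', hi'⟩, ⟨j', hj'⟩⟩ h
    have h' : s(i, j) = s(i', j') := h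
    rw [Sym2.eq_iff] at h'
    rw [Finset.mem_compl, Finset.mem_union, not_or] at hi hi'
    rcases h' with ⟨h1, h2⟩ | ⟨h1, h2⟩
    · subst h1; subst h2; rfl
    · subst h1
      exact absurd hj' hi.1
  have hcard1 : Fintype.card κ₁ = Fintype.card V - S.card - J.card := by
    have : Fintype.card κ₁ = ((S ∪ J)ᶜ).card := Fintype.card_coe _
    rw [this, Finset.card_compl, Finset.card_union_of_disjoint hJ]
    omega
  have hcard2 : Fintype.card κ₂ = S.card := Fintype.card_coe _
  set m := Fintype.card V - S.card - J.card with hm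
  have h := P_le_of_resample c hc (Circ S J)
    (((S.card).choose (S.card / 2) : ℝ) ^ m) ?_
  · rw [Fintype.card_prod, hcard1, hcard2] at h
    refine h.trans (le_of_eq ?_)
    unfold rho
    rw [div_pow, ← pow_mul, mul_comm m]
  · intro ω
    by_cases hex : ∃ η₀ : κ₁ × κ₂ → Bool, Circ S J (Function.extend c η₀ ω)
    · obtain ⟨η₀, v₀, hv₀, hk₀, hu₀⟩ := hex
      -- all solutions share the vector v₀
      have hsame : ∀ η θ : κ₁ × κ₂ → Bool, ∀ i ∈ S ∪ J, ∀ j ∈ S,
          A (Function.extend c η ω) i j = A (Function.extend c θ ω) i j := by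
        intro η θ i hi j hj
        have hn : ¬ ∃ p, c p = s(i, j) := by
          rintro ⟨⟨⟨i', hi'⟩, ⟨j', hj'⟩⟩, hp⟩
          have h' : s(i', j') = s(i, j) := hp
          rw [Sym2.eq_iff] at h'
          rw [Finset.mem_compl] at hi'
          rcases h' with ⟨h1, h2⟩ | ⟨h1, h2⟩
          · subst h1; exact hi' hi
          · subst h1; exact hi' (Finset.mem_union_left _ hj)
        unfold A
        rw [Function.extend_apply' _ _ _ hn, Function.extend_apply' _ _ _ hn]
      have hcross : ∀ (η : κ₁ × κ₂ → Bool) (i : κ₁) (j : κ₂),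
          A (Function.extend c η ω) i j = sgn (η (i, j)) := by
        intro η i j
        unfold A
        have : s((i : V), (j : V)) = c (i, j) := rfl
        rw [this, hc.extend_apply]
      have key : ∀ η : κ₁ × κ₂ → Bool, Circ S J (Function.extend c η ω) →
          ∀ i : κ₁, ∑ j : κ₂, sgn (η (i, j)) * v₀ j = 0 := by
        rintro η ⟨v, hv, hk, hu⟩ i
        have hvK : v ∈ Ker (Function.extend c η₀ ω) S (S ∪ J) := by
          refine ⟨fun i hi => by_contra fun hne => hi ((hv i).mp hne), fun i hi => ?_⟩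
          have h1 := hk i
          rw [sum_support _ v S (fun i hi => by_contra fun hne => hi ((hv i).mp hne))] at h1 ⊢
          rw [← h1]
          exact Finset.sum_congr rfl fun j hj => by rw [hsame η₀ η i hi j hj]
        obtain ⟨a, ha⟩ := hu₀ v hvK
        by_cases hS : ∃ j, j ∈ S
        · have ha0 : a ≠ 0 := by
            rintro rfl
            rw [zero_smul] at ha
            obtain ⟨j, hj⟩ := hS
            exact (hv j).mpr hj (by rw [ha]; rfl)
          have h1 := hk i
          rw [sum_support _ v S (fun i hi => by_contra fun hne => hi ((hv i).mp hne)),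
            ← Finset.sum_coe_sort] at h1
          have h2 : a * ∑ j : κ₂, sgn (η (i, j)) * v₀ j = 0 := by
            rw [← h1, Finset.mul_sum]
            refine Finset.sum_congr rfl fun j _ => ?_
            rw [hcross η i j, ha]
            simp only [Pi.smul_apply, smul_eq_mul]; ring
          rcases mul_eq_zero.mp h2 with h3 | h3
          · exact absurd h3 ha0
          · exact h3
        · refine Finset.sum_eq_zero fun j _ => ?_
          exact absurd ⟨j.1, j.2⟩ hS
      have hZ := littlewood_offord (κ := κ₂) (fun j => v₀ j) (fun j => (hv₀ j).mpr j.2) 0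
      rw [hcard2] at hZ
      set Z : Finset (κ₂ → Bool) := univ.filter (fun η : κ₂ → Bool => ∑ i, sgn (η i) * v₀ i = 0)
        with hZdef
      have hle : (univ.filter (fun η : κ₁ × κ₂ → Bool =>
          Circ S J (Function.extend c η ω))).card ≤ Z.card ^ m := by
        have h1 : (Fintype.piFinset fun _ : κ₁ => Z).card = Z.card ^ m := by
          rw [Fintype.card_piFinset, Finset.prod_const, Finset.card_univ, hcard1]
        rw [← h1]
        refine Finset.card_le_card_of_injOn (fun η i j => η (i, j)) ?_ ?_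
        · intro η hη
          have hη' := (Finset.mem_filter.mp (Finset.mem_coe.mp hη)).2
          rw [Finset.mem_coe, Fintype.mem_piFinset]
          intro i
          rw [hZdef, Finset.mem_filter]
          exact ⟨mem_univ _, key η hη' i⟩
        · intro η _ θ _ h
          funext p
          exact congrFun (congrFun h p.1) p.2
      calc ((univ.filter (fun η : κ₁ × κ₂ → Bool =>
          Circ S J (Function.extend c η ω))).card : ℝ) ≤ ((Z.card ^ m : ℕ) : ℝ) := by
            exact_mod_cast hle
        _ ≤ (((S.card).choose (S.card / 2) ^ m : ℕ) : ℝ) := by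
            exact_mod_cast Nat.pow_le_pow_left hZ m
        _ = ((S.card).choose (S.card / 2) : ℝ) ^ m := by push_cast; rfl
    · have : (univ.filter (fun η : κ₁ × κ₂ → Bool =>
          Circ S J (Function.extend c η ω))).card = 0 := by
        rw [Finset.card_eq_zero, Finset.filter_eq_empty_iff]
        intro η _ hη
        exact hex ⟨η, hη⟩
      rw [this]
      push_cast
      positivity

/-- From a circuit with small kernel on the principal block to a circuit detected by few outside
rows. -/
lemma exists_Circ (S : Finset V) (ω : Sym2 V → Bool) (hE : Circ S Sᶜ ω) :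
    ∀ (d : ℕ) (J : Finset V), J ⊆ Sᶜ → Module.finrank ℝ (Ker ω S (S ∪ J)) ≤ d + 1 →
      ∃ J' : Finset V, J' ⊆ Sᶜ ∧ J'.card ≤ J.card + d ∧ Circ S J' ω := by
  classical
  obtain ⟨v, hv, hk, hu⟩ := hE
  have hv0 : ∀ i, i ∉ S → v i = 0 := fun i hi => by_contra fun hne => hi ((hv i).mp hne)
  intro d
  induction d with
  | zero =>
    intro J hJ hfin
    refine ⟨J, hJ, le_rfl, ?_⟩
    by_contra hC
    have h1 : ∃ w ∈ Ker ω S (S ∪ J), ¬ ∃ c : ℝ, w = c • v := by
      by_contra hcon
      push Not at hcon
      exact hC ⟨v, hv, hk, hcon⟩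
    obtain ⟨w, hw, hwv⟩ := h1
    have hvK : v ∈ Ker ω S (S ∪ J) := ⟨hv0, fun i _ => hk i⟩
    by_cases hvz : v = 0
    · -- S is empty, then w = 0
      have hSe : ∀ i, i ∉ S := fun i hi => (hv i).mpr hi (by rw [hvz]; rfl)
      exact hwv ⟨0, by funext i; rw [hw.1 i (hSe i)]; simp⟩
    · have hli : LinearIndependent ℝ ![(⟨v, hvK⟩ : Ker ω S (S ∪ J)), ⟨w, hw⟩] := by
        rw [LinearIndependent.pair_iff' (by
          intro hc; exact hvz (congrArg Subtype.val hc))]
        intro a ha
        exact hwv ⟨a, (congrArg Subtype.val ha).symm⟩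
      have h2 := hli.fintype_card_le_finrank
      simp at h2
      omega
  | succ d ih =>
    intro J hJ hfin
    by_cases hC : Circ S J ω
    · exact ⟨J, hJ, by omega, hC⟩
    · have h1 : ∃ w ∈ Ker ω S (S ∪ J), ¬ ∃ c : ℝ, w = c • v := by
        by_contra hcon
        push Not at hcon
        exact hC ⟨v, hv, hk, hcon⟩
      obtain ⟨w, hw, hwv⟩ := h1
      -- some outside row does not kill w
      have h2 : ∃ i ∈ S ∪ Sᶜ, ∑ j, A ω i j * w j ≠ 0 := by
        by_contra hcon
        push Not at hcon
        exact hwv (hu w ⟨hw.1, hcon⟩)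
      obtain ⟨i, -, hi⟩ := h2
      have hiSJ : i ∉ S ∪ J := fun hmem => hi (hw.2 i hmem)
      have hiS : i ∉ S := fun h => hiSJ (Finset.mem_union_left _ h)
      have hiJ : i ∉ J := fun h => hiSJ (Finset.mem_union_right _ h)
      have hlt : Ker ω S (S ∪ insert i J) < Ker ω S (S ∪ J) := by
        refine lt_of_le_of_ne ?_ ?_
        · intro u hu'
          refine ⟨hu'.1, fun k hk' => hu'.2 k ?_⟩
          rcases Finset.mem_union.mp hk' with h | h
          · exact Finset.mem_union_left _ h
          · exact Finset.mem_union_right _ (Finset.mem_insert_of_mem h)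
        · intro heq
          have : w ∈ Ker ω S (S ∪ insert i J) := by rw [heq]; exact hw
          exact hi (this.2 i (Finset.mem_union_right _ (Finset.mem_insert_self _ _)))
      have hfin2 := Submodule.finrank_lt_finrank_of_lt hlt
      obtain ⟨J', hJ'S, hJ'c, hJ'C⟩ := ih (insert i J) (by
        intro k hk'
        rcases Finset.mem_insert.mp hk' with rfl | h
        · exact Finset.mem_compl.mpr hiS
        · exact hJ h) (by omega)
      refine ⟨J', hJ'S, ?_, hJ'C⟩
      rw [Finset.card_insert_of_notMem hiJ] at hJ'c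
      omega

/-- A nonzero kernel vector gives a circuit inside its support. -/
lemma exists_circuit (ω : Sym2 V → Bool) (v : V → ℝ) (hv : v ≠ 0)
    (hk : ∀ i, ∑ j, A ω i j * v j = 0) :
    ∃ S : Finset V, S.Nonempty ∧ S.card ≤ (univ.filter (fun i => v i ≠ 0)).card ∧
      Circ S Sᶜ ω := by
  classical
  have hex : ∃ m : ℕ, ∃ w : V → ℝ, w ≠ 0 ∧ (∀ i, ∑ j, A ω i j * w j = 0) ∧
      (univ.filter (fun i => w i ≠ 0)).card = m := ⟨_, v, hv, hk, rfl⟩
  obtain ⟨w, hw, hwk, hwc⟩ := Nat.find_spec hex
  have hmin : ∀ u : V → ℝ, u ≠ 0 → (∀ i, ∑ j, A ω i j * u j = 0) →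
      Nat.find hex ≤ (univ.filter (fun i => u i ≠ 0)).card := fun u hu huk =>
    Nat.find_min' hex ⟨u, hu, huk, rfl⟩
  refine ⟨univ.filter (fun i => w i ≠ 0), ?_, ?_, w, ?_, hwk, ?_⟩
  · by_contra hne
    rw [Finset.not_nonempty_iff_eq_empty] at hne
    apply hw
    funext i
    by_contra hi
    have : i ∈ univ.filter (fun i => w i ≠ 0) := by simpa using hi
    rw [hne] at this
    simp at this
  · rw [hwc]; exact hmin v hv hk
  · intro i; simp
  · intro u hu
    by_contra hcon
    push Not at hcon
    have huk : ∀ i, ∑ j, A ω i j * u j = 0 := fun i => hu.2 i (by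
      rw [Finset.union_compl]; exact mem_univ _)
    have hu0 : ∀ i, w i = 0 → u i = 0 := fun i hi => hu.1 i (by simp [hi])
    obtain ⟨i, hi⟩ : ∃ i, w i ≠ 0 := by
      by_contra hc
      push Not at hc
      exact hw (funext hc)
    set z : V → ℝ := u - (u i / w i) • w with hz
    have hz0 : z ≠ 0 := by
      intro hc
      exact hcon (u i / w i) (sub_eq_zero.mp hc)
    have hzk : ∀ k, ∑ j, A ω k j * z j = 0 := by
      intro k
      have : ∑ j, A ω k j * z j = ∑ j, A ω k j * u j - (u i / w i) * ∑ j, A ω k j * w j := by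
        rw [Finset.mul_sum, ← Finset.sum_sub_distrib]
        refine Finset.sum_congr rfl fun j _ => ?_
        simp only [hz, Pi.sub_apply, Pi.smul_apply, smul_eq_mul]; ring
      rw [this, huk, hwk, mul_zero, sub_zero]
    have h1 := hmin z hz0 hzk
    have h2 : (univ.filter (fun j => z j ≠ 0)) ⊂ (univ.filter (fun j => w j ≠ 0)) := by
      rw [Finset.ssubset_iff_of_subset]
      · refine ⟨i, by simpa using hi, ?_⟩
        simp [hz, hi]
      · intro j hj
        simp only [mem_filter, mem_univ, true_and] at hj ⊢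
        intro hwj
        apply hj
        simp [hz, hwj, hu0 j hwj]
    have h3 := Finset.card_lt_card h2
    omega

end Vale.Agent.P160
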